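import Vale.Agent.P253Y.T3x.Wrap
import Vale.Agent.P253Y.T3.Sk2

/-! The rows `GEOX` and `sel` of T3. -/

set_option linter.all false

open Set
open Vale.Agent.P272.K (Cm Chart)
open Vale.Agent.P253Z Vale.Agent.P253Z.T2
open Vale.Agent.P253Z.VS (ev)

namespace Vale.Agent.P253Y.T3x

theorem geox (M : Type) [MetricSpace M] [ChartedSpace (Cm 2) M] : T3.GEOX M := by
  intro T _ K _ _ ff z x hz e he hx hd hfin
  obtain ⟨⟨-, h1, h2, ⟨n, hn, h3⟩, h4⟩, -⟩ := geox' ff z x hz e he hx hd hfin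
  exact ⟨h1, h2, ⟨n, hn, h3.symm⟩, h4⟩

theorem sel {M : Type} [MetricSpace M] [ChartedSpace (Cm 2) M] {T : ℕ → Submodule ℂ (M → ℂ)}
    {K : Type} [Field K] [Algebra ℂ K] (ff : FF 2 T K) (z : Fin 2 → K) (x : M)
    (hz : ∀ i, z i ∈ ff.O x) (e : Chart 2 M) (he : Hc e) (hx : x ∈ e.source)
    (hd : Function.Bijective (fderiv ℂ (fun w i => ff.val (z i) (e.symm w)) (e x)))
    (hfin : FiniteDimensional (IntermediateField.adjoin ℂ (range z)) K) :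
    ∃ g P, T3.Gen z g P ∧ ev P.derivative (fun i => ff.val (z i) x) (ff.val g x) ≠ 0 := by
  obtain ⟨-, g, P, h1, h2, h3, h4, h5, h6, h7⟩ := geox' ff z x hz e he hx hd hfin
  exact ⟨g, P, ⟨h1, h2, h3, h4, h5, h6⟩, h7⟩

end Vale.Agent.P253Y.T3x
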