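import Mathlib.RingTheory.DedekindDomain.Different
import Mathlib.RingTheory.Localization.AsSubring
import Mathlib.RingTheory.DiscreteValuationRing.TFAE
import Mathlib.RingTheory.KrullDimension.Polynomial
import Mathlib.RingTheory.KrullDimension.Field
import Mathlib.Algebra.MvPolynomial.Division
import Mathlib.Algebra.MvPolynomial.PDeriv
import Mathlib.Algebra.MvPolynomial.NoZeroDivisors
import Mathlib.Analysis.Complex.Polynomial.Basic

/-! The codifferent has no pole along an unramified divisor. -/

set_option linter.all false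

open IsLocalRing nonZeroDivisors

namespace Vale.Agent.P253Y.T3x

theorem dvr_dual {R L K S : Type} [CommRing R] [IsDomain R] [IsDiscreteValuationRing R]
    [Algebra ℚ R] [Field L] [Algebra R L] [IsFractionRing R L] [Field K] [Algebra L K]
    [Algebra R K] [IsScalarTower R L K] [FiniteDimensional L K] [CommRing S] [IsDomain S]
    [Algebra R S] [Algebra S K] [IsScalarTower R S K] [IsIntegralClosure S R K] {f : R}
    (hf : maximalIdeal R = Ideal.span {f}) (q : Ideal S) [hq : q.IsPrime]
    (h1 : algebraMap R _ f ∈ q) (h2 : algebraMap R _ f ∉ q ^ 2) {h : K}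
    (hh : ∀ s : K, IsIntegral R s → Algebra.trace L K (h * s) ∈ (algebraMap R L).range) :
    ∃ d : S, d ∉ q ∧ IsIntegral R (h * algebraMap S K d) := by
  have : CharZero R := algebraRat.charZero R
  have : CharZero L := charZero_of_injective_algebraMap (IsFractionRing.injective R L)
  have : IsDedekindDomain S := IsIntegralClosure.isDedekindDomain R L K S
  have : IsFractionRing S K := IsIntegralClosure.isFractionRing_of_finite_extension R L K S
  have : Module.Finite R S := IsIntegralClosure.finite R L K S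
  have hi : Function.Injective (algebraMap R K) := by
    rw [IsScalarTower.algebraMap_eq R L K]
    exact (algebraMap L K).injective.comp (IsFractionRing.injective R L)
  have : FaithfulSMul R S := (faithfulSMul_iff_algebraMap_injective R S).2 fun a b e =>
    hi (by rw [IsScalarTower.algebraMap_apply R S K, e, ← IsScalarTower.algebraMap_apply])
  have : Module.IsTorsionFree R S := inferInstance
  have f0 : f ≠ 0 := fun e => IsDiscreteValuationRing.not_a_field R (by simp [hf, e])
  have q0 : q ≠ ⊥ := fun e => f0 (FaithfulSMul.algebraMap_injective R S (by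
    rw [map_zero]; exact Ideal.mem_bot.1 (e ▸ h1)))
  have : q.IsMaximal := hq.isMaximal q0
  have hm : Ideal.map (algebraMap R S) (maximalIdeal R) = Ideal.span {algebraMap R S f} := by
    rw [hf, Ideal.map_span, Set.image_singleton]
  have hle : Ideal.map (algebraMap R S) (maximalIdeal R) ≤ q := by
    rw [hm, Ideal.span_singleton_le_iff_mem]; exact h1
  have : q.LiesOver (maximalIdeal R) := ⟨(maximalIdeal.isMaximal R).eq_of_le
    (Ideal.comap_ne_top _ hq.ne_top) (Ideal.map_le_iff_le_comap.1 hle)⟩
  obtain ⟨Q, hQ⟩ := Ideal.dvd_iff_le.2 hle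
  have hc : IsCoprime q Q := by
    rw [Ideal.isCoprime_iff_sup_eq]
    by_contra e
    have h3 : Q ≤ q := (‹q.IsMaximal›.eq_of_le e le_sup_left).ge.trans' le_sup_right
    refine h2 ((Ideal.span_singleton_le_iff_mem _).1 ?_)
    rw [← hm, hQ, sq]
    exact Ideal.mul_mono_right h3
  letI : Field (R ⧸ maximalIdeal R) := Ideal.Quotient.field _
  letI : Field (S ⧸ q) := Ideal.Quotient.field _
  have : CharZero (R ⧸ maximalIdeal R) := algebraRat.charZero _
  have : Algebra.IsSeparable (R ⧸ maximalIdeal R) (S ⧸ q) := inferInstance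
  have : CharZero (FractionRing R) := inferInstance
  letI := FractionRing.liftAlgebra R (FractionRing S)
  have := FractionRing.isScalarTower_liftAlgebra R (FractionRing S)
  have : Algebra.IsSeparable (FractionRing R) (FractionRing S) := inferInstance
  have h4 := not_dvd_differentIdeal_of_isCoprime_of_isSeparable R q Q hc hQ.symm
  rw [Ideal.dvd_iff_le, SetLike.not_le_iff_exists] at h4
  obtain ⟨d, hd, hdq⟩ := h4
  refine ⟨d, hdq, ?_⟩
  have h5 : algebraMap S K d ∈ (1 / Submodule.traceDual R L 1 : Submodule S K) := by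
    rw [← coeSubmodule_differentIdeal R L S]
    exact ⟨d, hd, rfl⟩
  have h6 : h ∈ Submodule.traceDual R L (1 : Submodule S K) := by
    rw [Submodule.mem_traceDual]
    intro a ha
    obtain ⟨s, rfl⟩ := Submodule.mem_one.1 ha
    exact hh _ (IsIntegralClosure.isIntegral_iff.2 ⟨s, rfl⟩)
  obtain ⟨s, hs⟩ := Submodule.mem_one.1 (Submodule.mem_div_iff_forall_mul_mem.1 h5 h h6)
  rw [mul_comm, ← hs]
  exact IsIntegralClosure.isIntegral_iff.2 ⟨s, rfl⟩

/-- the elements of the localisation of `O` at `F` that are divisible by `F ^ k` -/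
def dv {S K : Type} [CommRing S] [Field K] [Algebra S K] (O : Subring K) (F : K)
    (hp : ∀ a ∈ O, ∀ b ∈ O, a * b / F ∈ O → a / F ∈ O ∨ b / F ∈ O) (h1 : 1 / F ∉ O)
    (hS : ∀ s : S, ∃ c ∈ O, c / F ∉ O ∧ algebraMap S K s * c ∈ O) (k : ℕ) : Ideal S where
  carrier := {s | ∃ c ∈ O, c / F ∉ O ∧ algebraMap S K s * c / F ^ k ∈ O}
  zero_mem' := ⟨1, one_mem _, h1, by simp⟩
  add_mem' := by
    rintro s t ⟨c, hc, c1, c2⟩ ⟨d, hd, d1, d2⟩
    refine ⟨c * d, mul_mem hc hd, fun h => (hp c hc d hd h).elim c1 d1, ?_⟩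
    convert add_mem (mul_mem c2 hd) (mul_mem d2 hc) using 1
    rw [map_add]; ring
  smul_mem' := by
    rintro t s ⟨c, hc, c1, c2⟩
    obtain ⟨d, hd, d1, d2⟩ := hS t
    refine ⟨c * d, mul_mem hc hd, fun h => (hp c hc d hd h).elim c1 d1, ?_⟩
    convert mul_mem c2 d2 using 1
    rw [smul_eq_mul, map_mul]; ring

section
variable {P L K : Type} [CommRing P] [IsDomain P] [IsNoetherianRing P] [Algebra ℚ P] [Field L]
  [Algebra P L] [IsFractionRing P L] [Field K] [Algebra L K] [Algebra P K] [IsScalarTower P L K]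
  [FiniteDimensional L K]

theorem no_pole {f : P} (hf : Prime f) (O : Subring K) (hB : ∀ b, IsIntegral P b → b ∈ O)
    (hp : ∀ a ∈ O, ∀ b ∈ O, a * b / algebraMap P K f ∈ O →
      a / algebraMap P K f ∈ O ∨ b / algebraMap P K f ∈ O)
    (hr : ∀ r : P, algebraMap P K r / algebraMap P K f ∈ O → f ∣ r) {h : K}
    (hh : ∀ b, IsIntegral P b → ∃ a c : P, ¬ f ∣ c ∧
      algebraMap P L c * Algebra.trace L K (h * b) = algebraMap P L a)
    (hfh : algebraMap P K f * h ∈ O) : h ∈ O := by
  set F := algebraMap P K f with hF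
  have hpr : (Ideal.span {f}).IsPrime := (Ideal.span_singleton_prime hf.ne_zero).2 hf
  let R := Localization.subalgebra.ofField L (Ideal.span {f}).primeCompl
    (Ideal.primeCompl_le_nonZeroDivisors _)
  have : IsLocalization.AtPrime R (Ideal.span {f}) :=
    Localization.subalgebra.isLocalization_ofField L _ _
  have : IsFractionRing R L :=
    IsFractionRing.isFractionRing_of_isLocalization (Ideal.span {f}).primeCompl _ _
      (Ideal.primeCompl_le_nonZeroDivisors _)
  have : IsLocalRing R := IsLocalization.AtPrime.isLocalRing R (Ideal.span {f})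
  have : IsNoetherianRing R :=
    IsLocalization.isNoetherianRing (Ideal.span {f}).primeCompl _ inferInstance
  have hm : maximalIdeal R = Ideal.span {algebraMap P R f} := by
    rw [← IsLocalization.AtPrime.map_eq_maximalIdeal (Ideal.span {f}) R, Ideal.map_span,
      Set.image_singleton]
  have hi := IsFractionRing.injective P L
  have hnf : ¬ IsField R := fun e => hf.ne_zero (hi (by
    have h1 := (isField_iff_maximalIdeal_eq.1 e)
    rw [hm, Ideal.span_singleton_eq_bot] at h1
    simpa using congrArg Subtype.val h1))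
  have : IsDiscreteValuationRing R :=
    ((IsDiscreteValuationRing.TFAE R hnf).out 4 0).1
      (show (maximalIdeal R).IsPrincipal from ⟨⟨_, hm⟩⟩)
  letI : Algebra ℚ R := ((algebraMap P R).comp (algebraMap ℚ P)).toAlgebra
  have F0 : F ≠ 0 := by
    rw [hF, IsScalarTower.algebraMap_apply P L K]
    simpa using hf.ne_zero
  have h1 : 1 / F ∉ O := fun e => hf.not_dvd_one (hr 1 (by simpa using e))
  have hO : ∀ r : P, algebraMap P K r ∈ O := fun r => hB _ isIntegral_algebraMap
  have hI : ∀ s : K, IsIntegral R s → ∃ r : P, ¬ f ∣ r ∧ IsIntegral P (s * algebraMap P K r) := by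
    intro s hs
    obtain ⟨r, hr⟩ := hs.exists_multiple_integral_of_isLocalization (Ideal.span {f}).primeCompl
    refine ⟨r, fun e => r.2 (Ideal.mem_span_singleton.2 e), ?_⟩
    rwa [Submonoid.smul_def, Algebra.smul_def, mul_comm] at hr
  have hS : ∀ s : integralClosure R K, ∃ c ∈ O, c / F ∉ O ∧ algebraMap _ K s * c ∈ O := by
    intro s
    obtain ⟨r, r1, r2⟩ := hI s s.2
    exact ⟨_, hO r, fun e => r1 (hr r e), hB _ r2⟩
  have hq : (dv O F hp h1 hS 1).IsPrime := by
    refine ⟨fun e => ?_, fun {s t} ⟨c, hc, c1, c2⟩ => ?_⟩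
    · obtain ⟨c, -, c1, c2⟩ := (Ideal.eq_top_iff_one _).1 e
      exact c1 (by simpa using c2)
    · obtain ⟨a, ha, a1, a2⟩ := hS s
      obtain ⟨b, hb, b1, b2⟩ := hS t
      refine (hp _ a2 _ (mul_mem b2 hc) ?_).imp (fun e => ⟨a, ha, a1, by rwa [pow_one]⟩)
        fun e => ⟨b * c, mul_mem hb hc, fun h => (hp b hb c hc h).elim b1 c1, ?_⟩
      · convert mul_mem c2 (mul_mem ha hb) using 1
        rw [map_mul]; ring
      · rwa [pow_one, ← mul_assoc]
  have hFs : algebraMap (integralClosure R K) K (algebraMap R _ (algebraMap P R f)) = F := by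
    rw [← IsScalarTower.algebraMap_apply, ← IsScalarTower.algebraMap_apply]
  obtain ⟨d, hd, hdh⟩ := dvr_dual (L := L) (h := h) hm (dv O F hp h1 hS 1)
    ⟨1, one_mem _, h1, by rw [hFs, mul_one, pow_one, div_self F0]; exact one_mem _⟩
    (fun e => by
      have h2 : dv O F hp h1 hS 1 ^ 2 ≤ dv O F hp h1 hS 2 := by
        rw [sq, Ideal.mul_le]
        rintro s ⟨c, hc, c1, c2⟩ t ⟨d, hd, d1, d2⟩
        refine ⟨c * d, mul_mem hc hd, fun h => (hp c hc d hd h).elim c1 d1, ?_⟩
        convert mul_mem c2 d2 using 1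
        rw [map_mul]; ring
      obtain ⟨c, -, c1, c2⟩ := h2 e
      refine c1 ?_
      convert c2 using 1
      rw [hFs]; field_simp)
    (fun s hs => by
      obtain ⟨r, r1, r2⟩ := hI s hs
      obtain ⟨a, c, c1, c2⟩ := hh _ r2
      have h3 : ¬ f ∣ c * r := fun e => (hf.dvd_or_dvd e).elim c1 r1
      have h4 : algebraMap P L (c * r) ≠ 0 := fun e => h3 (by
        rw [hi (e.trans (map_zero _).symm)]; exact dvd_zero f)
      refine ⟨⟨_, a, c * r, fun e => h3 (Ideal.mem_span_singleton.1 e), rfl⟩, ?_⟩
      change algebraMap P L a * (algebraMap P L (c * r))⁻¹ = _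
      rw [← c2, ← mul_assoc h, mul_comm (h * s), IsScalarTower.algebraMap_apply P L K,
        ← Algebra.smul_def (algebraMap P L r), map_smul, smul_eq_mul, ← mul_assoc, ← map_mul]
      field_simp)
  obtain ⟨r, r1, r2⟩ := hI _ hdh
  obtain ⟨c, hc, c1, c2⟩ := hS d
  have h5 := hp _ hfh _ (mul_mem c2 (hO r)) (by
    convert mul_mem (hB _ r2) hc using 1
    field_simp)
  rw [mul_div_cancel_left₀ _ F0] at h5
  refine h5.resolve_right fun e => (hp _ c2 _ (hO r) e).elim (fun e => hd ⟨c, hc, c1, ?_⟩)
    fun e => r1 (hr r e)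
  rwa [pow_one]

end

/-- The canonical element. -/
theorem casimir {A L K B ι : Type} [CommRing A] [Field L] [Algebra A L] [Field K] [Algebra L K]
    [Algebra A K] [IsScalarTower A L K] [FiniteDimensional L K] [Algebra.IsSeparable L K]
    [CommRing B] [Algebra A B] [Algebra B K] [IsScalarTower A B K] [Fintype ι] [DecidableEq ι]
    (b : Module.Basis ι A B) (c : Module.Basis ι L K) (hc : ∀ i, c i = algebraMap B K (b i)) :
    (∀ i (s : B), Algebra.trace L K (c.traceDual i * algebraMap B K s) =
      algebraMap A L (b.repr s i)) ∧ ∑ i, c.traceDual i * c i = 1 ∧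
    ∀ (s : B) j, algebraMap B K s * c.traceDual j =
      ∑ i, algebraMap A K (b.repr (s * b i) j) * c.traceDual i := by
  have h1 : ∀ i (s : B), Algebra.trace L K (c.traceDual i * algebraMap B K s) =
      algebraMap A L (b.repr s i) := by
    intro i s
    conv_lhs => rw [← b.sum_repr s]
    have : ∀ j, Algebra.trace L K (c.traceDual i * algebraMap B K (b.repr s j • b j)) =
        if j = i then algebraMap A L (b.repr s j) else 0 := by
      intro j
      rw [Algebra.smul_def, map_mul (algebraMap B K), ← hc, ← IsScalarTower.algebraMap_apply,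
        IsScalarTower.algebraMap_apply A L K, mul_left_comm, ← Algebra.smul_def, map_smul,
        c.trace_traceDual_mul]
      simp
    simp only [map_sum, Finset.mul_sum, this]
    simp
  refine ⟨h1, ?_, fun s j => ?_⟩
  · refine c.traceDual.repr.injective (Finsupp.ext fun k => ?_)
    rw [c.traceDual_repr_apply, c.traceDual_repr_apply, Algebra.traceForm_apply,
      Algebra.traceForm_apply, one_mul, Finset.sum_mul, map_sum,
      Algebra.trace_eq_matrix_trace c, Matrix.trace]
    refine Finset.sum_congr rfl fun i _ => ?_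
    rw [Matrix.diag_apply, Algebra.leftMulMatrix_eq_repr_mul,
      ← c.traceDual_traceDual, c.traceDual.traceDual_repr_apply, c.traceDual_traceDual,
      Algebra.traceForm_apply]
    congr 1
    ring
  · conv_lhs => rw [← c.traceDual.sum_repr (algebraMap B K s * c.traceDual j)]
    refine Finset.sum_congr rfl fun i _ => ?_
    rw [c.traceDual_repr_apply, Algebra.traceForm_apply, Algebra.smul_def,
      IsScalarTower.algebraMap_apply A L K, ← h1, map_mul (algebraMap B K), ← hc]
    congr 3
    ring

/-- polynomials in two variables -/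
abbrev P2 : Type := MvPolynomial (Fin 2) ℂ

theorem chain {p q r : Ideal P2} [p.IsPrime] [q.IsPrime] [r.IsPrime] (h0 : p ≠ ⊥) (h1 : p < q)
    (h2 : q ≤ r) : q = r := by
  by_contra h3
  have := Ideal.isPrime_bot (α := P2)
  have a0 := Ideal.height_add_one_le_of_lt_of_isPrime (bot_lt_iff_ne_bot.2 h0)
  have a1 := Ideal.height_add_one_le_of_lt_of_isPrime h1
  have a2 := Ideal.height_add_one_le_of_lt_of_isPrime (lt_of_le_of_ne h2 h3)
  have a3 := Ideal.height_le_ringKrullDim_of_ne_top (‹r.IsPrime›.ne_top)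
  rw [MvPolynomial.ringKrullDim_of_isNoetherianRing, ringKrullDim_eq_zero_of_field] at a3
  have a4 : (3 : ℕ∞) ≤ r.height := by
    refine le_trans ?_ a2
    refine le_trans ?_ (add_le_add_left a1 1)
    refine le_trans ?_ (add_le_add_left (add_le_add_left a0 1) 1)
    rw [Ideal.height_bot]
    norm_num
  have a5 := (WithBot.coe_le_coe.2 a4).trans a3
  norm_num at a5

/-- the ideal of a point -/
noncomputable def mp (η : Fin 2 → ℂ) : Ideal P2 := RingHom.ker (MvPolynomial.eval η)

theorem mem_mp {η : Fin 2 → ℂ} {p : P2} : p ∈ mp η ↔ MvPolynomial.eval η p = 0 := Iff.rfl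

instance (η : Fin 2 → ℂ) : (mp η).IsMaximal :=
  RingHom.ker_isMaximal_of_surjective _ fun c => ⟨MvPolynomial.C c, by simp⟩

theorem mp_fin {f g : P2} (hf : Prime f) (hg : ¬ f ∣ g) :
    {η | MvPolynomial.eval η f = 0 ∧ MvPolynomial.eval η g = 0}.Finite := by
  have hpr : (Ideal.span {f}).IsPrime := (Ideal.span_singleton_prime hf.ne_zero).2 hf
  refine Set.Finite.of_finite_image (f := mp)
    ((Ideal.finite_minimalPrimes_of_isNoetherianRing _ (Ideal.span {f, g})).subset ?_)
    fun a _ b _ e => funext fun i => ?_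
  · rintro _ ⟨η, hη, rfl⟩
    have h1 : Ideal.span {f, g} ≤ mp η := Ideal.span_le.2 (by
      rintro _ (rfl | rfl)
      exacts [hη.1, hη.2])
    obtain ⟨p, hp, h2⟩ := Ideal.exists_minimalPrimes_le h1
    have := hp.1.1
    have h3 : Ideal.span {f} < p := lt_of_le_of_ne
      ((Ideal.span_mono (by simp)).trans hp.1.2) fun e => hg (Ideal.mem_span_singleton.1
        (e ▸ hp.1.2 (Ideal.subset_span (by simp))))
    exact chain (by simpa using hf.ne_zero) h3 h2 ▸ hp
  · have h : MvPolynomial.X i - MvPolynomial.C (a i) ∈ mp b := e ▸ mem_mp.2 (by simp)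
    have := mem_mp.1 h
    simp at this
    exact (sub_eq_zero.1 this).symm

theorem mp_zero {p : P2} (h : p ∈ mp 0) :
    ∃ a b, p = a * MvPolynomial.X 0 + b * MvPolynomial.X 1 := by
  have : ∀ q : P2, ∃ a b, q - MvPolynomial.C (MvPolynomial.eval 0 q) =
      a * MvPolynomial.X 0 + b * MvPolynomial.X 1 := by
    intro q
    induction q using MvPolynomial.induction_on with
    | C c => exact ⟨0, 0, by simp⟩
    | add p q hp hq =>
      obtain ⟨a, b, e⟩ := hp
      obtain ⟨c, d, e'⟩ := hq
      exact ⟨a + c, b + d, by rw [map_add, map_add]; linear_combination e + e'⟩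
    | mul_X p i _ =>
      fin_cases i
      · exact ⟨p, 0, by simp⟩
      · exact ⟨0, p, by simp⟩
  have h1 := this p
  rwa [mem_mp.1 h, map_zero, sub_zero] at h1

theorem ex_der {f : P2} (hf : Prime f) : ∃ i, ¬ f ∣ MvPolynomial.pderiv i f := by
  by_contra h
  push Not at h
  have h1 : ∀ i, MvPolynomial.pderiv i f = 0 := by
    intro i
    by_contra h0
    have h2 := MvPolynomial.totalDegree_le_of_dvd_of_isDomain (h i) h0
    obtain ⟨m, hm, e⟩ := Finset.exists_mem_eq_sup _ (MvPolynomial.support_nonempty.2 h0)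
      fun s : Fin 2 →₀ ℕ => s.sum fun _ e => e
    have h3 : m + Finsupp.single i 1 ∈ f.support := by
      rw [MvPolynomial.mem_support_iff, MvPolynomial.coeff_pderiv] at *
      exact left_ne_zero_of_mul hm
    have h4 := MvPolynomial.le_totalDegree h3
    rw [Finsupp.sum_add_index' (by simp) (by simp), Finsupp.sum_single_index rfl] at h4
    have h5 : (MvPolynomial.pderiv i f).totalDegree = m.sum fun _ e => e := e
    omega
  have h2 : f = MvPolynomial.C (f.coeff 0) := by
    refine MvPolynomial.ext _ _ fun m => ?_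
    rw [MvPolynomial.coeff_C]
    split_ifs with hm
    · rw [hm]
    · obtain ⟨i, hi⟩ := DFunLike.ne_iff.1 (Ne.symm hm)
      have h3 := MvPolynomial.coeff_pderiv (i := i) f (m - Finsupp.single i 1)
      rw [h1, MvPolynomial.coeff_zero, tsub_add_cancel_of_le
        (Finsupp.single_le_iff.2 (Nat.one_le_iff_ne_zero.2 hi))] at h3
      exact (mul_eq_zero.1 h3.symm).resolve_right (Nat.cast_add_one_ne_zero _)
  refine hf.not_unit (h2 ▸ (IsUnit.mk0 _ fun e => hf.ne_zero ?_).map MvPolynomial.C)
  rw [h2, e, map_zero]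

end Vale.Agent.P253Y.T3x
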