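import Vale.Agent.P253Y.T3x.Alg

/-! The idempotent of the unramified point. -/

set_option linter.all false

open IsLocalRing nonZeroDivisors

namespace Vale.Agent.P253Y.T3x

section
variable {A L K B ι : Type} [CommRing A] [Field L] [Algebra A L] [Field K] [Algebra L K]
  [Algebra A K] [IsScalarTower A L K] [FiniteDimensional L K] [Algebra.IsSeparable L K]
  [CommRing B] [Algebra A B] [Algebra B K] [IsScalarTower A B K] [Fintype ι] [DecidableEq ι]

theorem idem (b : Module.Basis ι A B) (c : Module.Basis ι L K)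
    (hc : ∀ i, c i = algebraMap B K (b i)) (O : Subring K) (v : O →+* ℂ) (φ : B →+* O)
    (hφ : ∀ s, (φ s : K) = algebraMap B K s)
    (hd : ∀ h : K, (∀ s : B, Algebra.trace L K (h * algebraMap B K s) ∈ (algebraMap A L).range) →
      h ∈ O) (hs : ∀ t : ℂ, ∃ a : A, v (φ (algebraMap A B a)) = t) :
    ∃ ε : B, v (φ ε) = 1 ∧ ∀ s : B, v (φ s) = 0 →
      ∀ j, v (φ (algebraMap A B (b.repr (s * ε) j))) = 0 := by
  obtain ⟨h1, h2, h3⟩ := casimir b c hc
  let d : ι → O := fun i => ⟨c.traceDual i, hd _ fun s => ⟨_, (h1 i s).symm⟩⟩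
  choose γ hγ using fun i => hs (v (d i))
  refine ⟨∑ i, γ i • b i, ?_, fun s h0 j => ?_⟩
  · have e : ∑ i, d i * φ (b i) = 1 := Subtype.ext (by
      rw [AddSubmonoidClass.coe_finsetSum]
      simp only [MulMemClass.coe_mul, hφ, ← hc]
      exact h2)
    rw [← map_one v, ← e]
    simp only [map_sum, map_mul, Algebra.smul_def, hγ]
  · have e : φ s * d j = ∑ i, φ (algebraMap A B (b.repr (s * b i) j)) * d i := Subtype.ext (by
      rw [AddSubmonoidClass.coe_finsetSum]
      simp only [MulMemClass.coe_mul, hφ, ← IsScalarTower.algebraMap_apply]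
      exact h3 s j)
    have e' := congrArg v e
    rw [map_mul, h0, zero_mul] at e'
    rw [e', Finset.mul_sum]
    simp only [mul_smul_comm, map_sum, map_smul, Finsupp.coe_finsetSum, Finset.sum_apply,
      Finsupp.smul_apply, smul_eq_mul, map_mul, hγ, mul_comm]

end

open Polynomial in
theorem simple_root {A B ι : Type} [CommRing A] [CommRing B] [Algebra A B] [Fintype ι]
    [DecidableEq ι] (b : Module.Basis ι A B) (v : B →+* ℂ)
    (hs : ∀ t : ℂ, ∃ a : A, v (algebraMap A B a) = t) {g : B} (h0 : v g ≠ 0)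
    (hg : ∀ s : B, v s = 0 → ∀ j, v (algebraMap A B (b.repr (s * g) j)) = 0) :
    v (aeval g (derivative (Algebra.leftMulMatrix b g).charpoly)) ≠ 0 := by
  set w := v.comp (algebraMap A B) with hw
  have h1 : (Algebra.leftMulMatrix b g).map w =
      Matrix.vecMulVec (fun j => w (b.repr g j)) fun i => v (b i) := by
    ext j i
    obtain ⟨a, ha⟩ := hs (v (b i))
    have h2 := hg (b i - algebraMap A B a) (by rw [map_sub, ha, sub_self]) j
    rw [sub_mul, ← Algebra.smul_def, map_sub, map_smul, Finsupp.sub_apply, Finsupp.smul_apply,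
      map_sub, map_sub, smul_eq_mul, map_mul (algebraMap A B), map_mul v, ha, sub_eq_zero,
      mul_comm (b i)] at h2
    rw [Matrix.map_apply, Algebra.leftMulMatrix_eq_repr_mul, Matrix.vecMulVec_apply,
      mul_comm (w _)]
    exact h2
  have h2 : (fun j => w (b.repr g j)) ⬝ᵥ (fun i => v (b i)) = v g := by
    conv_rhs => rw [← b.sum_repr g]
    simp [dotProduct, hw, Algebra.smul_def]
  have h3 : Fintype.card ι ≠ 0 := fun e => by
    have := Fintype.card_eq_zero_iff.1 e
    exact h0 (by rw [← h2]; simp [dotProduct])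
  rw [aeval_def, hom_eval₂, eval₂_eq_eval_map, ← derivative_map, ← hw, ← Matrix.charpoly_map, h1,
    Matrix.charpoly_vecMulVec, h2]
  obtain ⟨k, hk⟩ := Nat.exists_eq_succ_of_ne_zero h3
  rw [hk]
  have h4 : eval (v g) (derivative (X ^ (k + 1) - v g • X ^ k : ℂ[X])) = v g ^ k := by
    cases k with
    | zero => simp
    | succ k =>
      simp [derivative_X_pow]
      ring
  exact h4 ▸ pow_ne_zero k h0

open Polynomial in
theorem minpoly_eq {L K ι : Type} [Field L] [Field K] [Algebra L K] [Fintype ι] [DecidableEq ι]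
    (c : Module.Basis ι L K) {g : K}
    (h : aeval g (derivative (Algebra.leftMulMatrix c g).charpoly) ≠ 0) :
    minpoly L g = (Algebra.leftMulMatrix c g).charpoly := by
  have := Module.Finite.of_basis c
  have h0 : aeval g (Algebra.leftMulMatrix c g).charpoly = 0 := Algebra.leftMulMatrix_injective c (by
    rw [← aeval_algHom_apply, Matrix.aeval_self_charpoly, map_zero])
  obtain ⟨R, hR⟩ := minpoly.dvd L g h0
  have hm := minpoly.monic (IsIntegral.of_finite L g)
  have hR1 : R.Monic := hm.of_mul_monic_left (hR ▸ Matrix.charpoly_monic _)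
  have h1 : aeval g R ≠ 0 := fun e => h (by
    rw [hR, derivative_mul, map_add, map_mul, map_mul, e, minpoly.aeval, mul_zero, zero_mul,
      add_zero])
  rw [hR, eq_one_of_monic_natDegree_zero hR1 ?_, mul_one]
  by_contra h2
  let f := algebraMap L (AlgebraicClosure L)
  obtain ⟨t, ht⟩ := IsAlgClosed.exists_root (R.map f) (by
    rw [degree_map]
    exact fun e => h2 (natDegree_eq_zero_iff_degree_le_zero.2 e.le))
  obtain ⟨R₁, e⟩ := dvd_iff_isRoot.2 ht
  set N := Algebra.leftMulMatrix c g
  have h3 : (Matrix.scalar ι t - N.map f).det = 0 := by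
    rw [← Matrix.eval_charpoly, Matrix.charpoly_map, hR, Polynomial.map_mul, eval_mul, ht.eq_zero,
      mul_zero]
  have h4 : aeval (N.map f) (R.map f) = (Algebra.leftMulMatrix c (aeval g R)).map f := by
    rw [← aeval_algHom_apply, aeval_map_algebraMap]
    exact aeval_algHom_apply (Algebra.ofId L (AlgebraicClosure L)).mapMatrix N R
  have h5 : IsUnit (aeval (N.map f) (R.map f)) := by
    rw [h4]
    exact ((IsUnit.mk0 _ h1).map (Algebra.leftMulMatrix c)).map f.mapMatrix
  rw [e, map_mul, map_sub, aeval_X, aeval_C] at h5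
  have h6 := (Matrix.isUnit_iff_isUnit_det _).1 h5
  rw [Matrix.det_mul, ← neg_sub, Matrix.det_neg] at h6
  exact h6.ne_zero (by rw [show algebraMap _ _ t = Matrix.scalar ι t from rfl, h3]; simp)

open MvPolynomial in
theorem mp_gen {η : Fin 2 → ℂ} {p : P2} (h : p ∈ mp η) :
    ∃ a b, p = a * (X 0 - C (η 0)) + b * (X 1 - C (η 1)) := by
  have : ∀ q : P2, ∃ a b, q - C (eval η q) = a * (X 0 - C (η 0)) + b * (X 1 - C (η 1)) := by
    intro q
    induction q using MvPolynomial.induction_on with
    | C c => exact ⟨0, 0, by simp⟩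
    | add p q hp hq =>
      obtain ⟨a, b, e⟩ := hp
      obtain ⟨c, d, e'⟩ := hq
      exact ⟨a + c, b + d, by rw [map_add, map_add]; linear_combination e + e'⟩
    | mul_X p i hp =>
      obtain ⟨a, b, e⟩ := hp
      rw [map_mul, map_mul, eval_X]
      revert i
      exact Fin.forall_fin_two.2
        ⟨⟨p + C (η 0) * a, C (η 0) * b, by linear_combination (C (η 0) : P2) * e⟩,
        ⟨C (η 1) * a, p + C (η 1) * b, by linear_combination (C (η 1) : P2) * e⟩⟩
  have h1 := this p
  rwa [mem_mp.1 h, map_zero, sub_zero] at h1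

open MvPolynomial in
theorem prime_sub (η : Fin 2 → ℂ) : Prime (X 0 - C (η 0) : P2) := by
  let τ : P2 ≃ₐ[ℂ] P2 := AlgEquiv.ofAlgHom (aeval fun i => X i - C (η i))
    (aeval fun i => X i + C (η i)) (algHom_ext fun i => by simp) (algHom_ext fun i => by simp)
  have := (MulEquiv.prime_iff τ (p := X 0)).2 X_prime
  simpa [τ] using this

open MvPolynomial in
theorem not_dvd_sub (η : Fin 2 → ℂ) : ¬ (X 0 - C (η 0) : P2) ∣ X 1 - C (η 1) := fun h => by
  simpa using map_dvd (eval ![η 0, η 1 + 1]) h

end Vale.Agent.P253Y.T3x
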