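import Vale.Agent.P253Y.T3x.Loc
import Vale.Agent.P253Y.T3x.Alg2
import Vale.Agent.P253Y.Res.Free
import Vale.Agent.P253Y.Res.Reg

/-! The local rings of the field of ratios are local rings of an affine model. -/

set_option linter.all false

open scoped Topology
open Set Metric Filter IsLocalRing
open Vale.Agent.P272.K (Cm Chart)
open Vale.Agent.P253Z Vale.Agent.P253Z.T2 Vale.Agent.P297Z.Sf Vale.Agent.P253Y.Res

noncomputable section

namespace Vale.Agent.P253Y.T3x

variable {M : Type} [MetricSpace M] [ChartedSpace (Cm 2) M]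
  {T : ℕ → Submodule ℂ (M → ℂ)} {K : Type} [Field K] [Algebra ℂ K] {ff : FF 2 T K}
  {ψ : Chart 2 M} {x : M} {z : Fin 2 → K}

/-- the integral closure of `ℂ[z₀, z₁]` -/
def Bz (z : Fin 2 → K) : Subalgebra ℂ K :=
  (integralClosure (Algebra.adjoin ℂ (range z)) K).restrictScalars ℂ

theorem mem_Bz {f : K} : f ∈ Bz z ↔ IsIntegral (Algebra.adjoin ℂ (range z)) f := Iff.rfl

section
variable [Algebra P2 K] [IsScalarTower ℂ P2 K] (L : Type) [Field L] [Algebra P2 L]
  [IsFractionRing P2 L] [Algebra L K] [IsScalarTower P2 L K] [FiniteDimensional L K]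
  (ha : ∀ p, algebraMap P2 K p = MvPolynomial.aeval z p) (h : An ff ψ) (hx : x ∈ ψ.source)
  (hz : ∀ y ∈ ψ.source, (∀ i, z i ∈ ff.O y) ∧ ψ y = fun i => ff.val (z i) y)

/-- the codifferent, near the point `η` -/
def Du (η : Cm 2) (g : K) : Prop := ∀ b, IsIntegral P2 b → ∃ a c : P2, c ∉ mp η ∧
  algebraMap P2 L c * Algebra.trace L K (g * b) = algebraMap P2 L a

include ha h hx hz

theorem poly_mem (p : P2) : algebraMap P2 K p ∈ ff.O x ∧
    ff.val (algebraMap P2 K p) x = MvPolynomial.eval (ψ x) p := by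
  rw [ha, (hz x hx).2]
  exact aeval_mem ff (hz x hx).1 p

theorem int_mem {b : K} (hb : IsIntegral P2 b) : b ∈ ff.O x :=
  h.int hx (hb.map_of_comp_eq ((algebraMap P2 K).codRestrict (ff.O x)
    fun p => (poly_mem ha h hx hz p).1) (RingHom.id K) rfl)

include L in
theorem inj : Function.Injective (algebraMap P2 K) := by
  rw [IsScalarTower.algebraMap_eq P2 L K]
  exact (algebraMap L K).injective.comp (IsFractionRing.injective P2 L)

theorem of_mul {g : K} {p : P2} (hp : p ∉ mp (ψ x)) (hg : algebraMap P2 K p * g ∈ ff.O x) :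
    g ∈ ff.O x := by
  have h1 := poly_mem ha h hx hz p
  have h2 : ff.val (algebraMap P2 K p) x ≠ 0 := h1.2 ▸ hp
  have h3 : algebraMap P2 K p ≠ 0 := fun e => h2 (e ▸ val_zero ff x)
  have := mul_mem (ff.inv x _ h1.1 h2) hg
  rwa [inv_mul_cancel_left₀ h3] at this

theorem smooth_pt {η : Cm 2} {f : P2} (hf : Prime f) (hη : f ∈ mp η) {g : K} (hg : Du L η g)
    {i : Fin 2} (hi : MvPolynomial.eval (ψ x) (MvPolynomial.pderiv i f) ≠ 0)
    (hfg : algebraMap P2 K f * g ∈ ff.O x) : g ∈ ff.O x := by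
  by_cases h0 : f ∈ mp (ψ x)
  swap
  · exact of_mul ha h hx hz h0 hfg
  obtain ⟨j, χ, k1, k2, k3, k4⟩ := h.poly hx hz hi
  rw [← ha] at k3
  have v0 := (poly_mem ha h hx hz f).2.trans h0
  have f0 : algebraMap P2 K f ≠ 0 := (map_ne_zero_iff _ (inj L ha h hx hz)).2 hf.ne_zero
  have hp := fun a (h1 : a ∈ ff.O x) b (h2 : b ∈ ff.O x) => k1.prime k2 k3 v0 f0 h1 h2
  have hn : ∀ c : ℂ, algebraMap P2 K (MvPolynomial.X j - MvPolynomial.C c) / algebraMap P2 K f ∉
      ff.O x := fun c => by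
    rw [ha (_ - _), map_sub, MvPolynomial.aeval_X, MvPolynomial.aeval_C]
    exact k1.not_dvd k2 k3 v0 f0 k4 c
  refine no_pole (L := L) hf (ff.O x).toSubring (fun b hb => int_mem ha h hx hz hb) hp
    (fun r hr => ?_) (fun b hb => (hg b hb).imp fun a => Exists.imp fun c k =>
      ⟨fun e => k.1 (Ideal.mem_of_dvd _ e hη), k.2⟩) hfg
  let q : Ideal P2 :=
    { carrier := {r | algebraMap P2 K r / algebraMap P2 K f ∈ ff.O x}
      zero_mem' := by simp
      add_mem' := fun {a b} k l => by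
        rw [mem_setOf_eq, map_add, add_div]; exact add_mem k l
      smul_mem' := fun a b k => by
        rw [mem_setOf_eq, smul_eq_mul, map_mul, mul_div_assoc]
        exact mul_mem (poly_mem ha h hx hz a).1 k }
  have hle : q ≤ mp (ψ x) := fun r hr => by
    have := ff.val_mul x _ hr _ (poly_mem ha h hx hz f).1
    rwa [div_mul_cancel₀ _ f0, v0, mul_zero, (poly_mem ha h hx hz r).2] at this
  have : q.IsPrime := ⟨fun e => (inferInstance : (mp (ψ x)).IsMaximal).ne_top (top_le_iff.1 (e ▸ hle)),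
    fun {a b} k => hp _ (poly_mem ha h hx hz a).1 _ (poly_mem ha h hx hz b).1 (by rwa [← map_mul])⟩
  have : (Ideal.span {f}).IsPrime := (Ideal.span_singleton_prime hf.ne_zero).2 hf
  by_contra e
  have h1 : Ideal.span {f} < q := lt_of_le_of_ne ((Ideal.span_singleton_le_iff_mem _).2 (by
    change algebraMap P2 K f / algebraMap P2 K f ∈ ff.O x
    rw [div_self f0]; exact one_mem _)) fun k => e (Ideal.mem_span_singleton.1 (k ▸ hr))
  refine hn (ψ x j) (show _ ∈ q from ?_)
  rw [chain (by simpa using hf.ne_zero) h1 hle, mem_mp]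
  simp

theorem step {f : P2} (hf : Prime f) {g : K} (hg : Du L (ψ x) g)
    (hfg : algebraMap P2 K f * g ∈ ff.O x) : g ∈ ff.O x := by
  by_cases h0 : f ∈ mp (ψ x)
  swap
  · exact of_mul ha h hx hz h0 hfg
  obtain ⟨i, hi⟩ := ex_der hf
  refine h.punct hx (eventually_nhdsWithin_iff.2 ?_)
  filter_upwards [ψ.open_source.mem_nhds hx, ff.nhds x _ hfg, (ψ.continuousAt hx).eventually
    (((mp_fin hf hi).diff (t := {ψ x})).isClosed.isOpen_compl.mem_nhds fun k => k.2 rfl)]
    with y h1 h2 h3 h4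
  by_cases h5 : f ∈ mp (ψ y)
  · exact smooth_pt L ha h h1 hz hf h0 hg (i := i)
      (fun e => h3 ⟨⟨h5, e⟩, fun k => h4 (ψ.injOn h1 hx k)⟩) h2
  · exact of_mul ha h h1 hz h5 h2

theorem dual_mem {g : K} (hg : Du L (ψ x) g) : g ∈ ff.O x := by
  have key : ∀ d : P2, d ≠ 0 → ∀ g, Du L (ψ x) g → algebraMap P2 K d * g ∈ ff.O x →
      g ∈ ff.O x := by
    intro d
    induction d using UniqueFactorizationMonoid.induction_on_prime with
    | h₁ => exact fun k => absurd rfl k
    | h₂ u hu =>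
      exact fun _ g _ k => of_mul ha h hx hz (fun e =>
        (inferInstance : (mp (ψ x)).IsMaximal).ne_top (Ideal.eq_top_of_isUnit_mem _ e hu)) k
    | h₃ a p h0 hp ih =>
      refine fun _ g k1 k2 => ih h0 g k1 (step L ha h hx hz hp (fun b hb => ?_) ?_)
      · rw [mul_comm _ g, mul_assoc]
        exact k1 _ (isIntegral_algebraMap.mul hb)
      · rwa [← mul_assoc, ← map_mul]
  obtain ⟨d, h0, hd⟩ := ((IsFractionRing.isAlgebraic_iff P2 L K).2
    (Algebra.IsAlgebraic.isAlgebraic g)).exists_integral_multiple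
  exact key d h0 g hg (int_mem ha h hx hz (by rwa [← Algebra.smul_def]))

/-- the local structure of the integral closure -/
def Core (ff : FF 2 T K) (z : Fin 2 → K) (η : Cm 2) (x : M) (g : K) : Prop :=
  IsIntegral P2 g ∧ ff.val g x ≠ 0 ∧
    (∀ s, IsIntegral P2 s → ff.val s x = 0 → ∃ r ∉ mp η, ∃ u w, IsIntegral P2 u ∧
      IsIntegral P2 w ∧ s * g * algebraMap P2 K r =
        u * (z 0 - algebraMap ℂ K (η 0)) + w * (z 1 - algebraMap ℂ K (η 1))) ∧
    IntermediateField.adjoin L {g} = ⊤ ∧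
    ff.val (Polynomial.aeval g (Polynomial.derivative (minpoly P2 g))) x ≠ 0

section
variable (A B : Type) [CommRing A] [IsDomain A] [Algebra P2 A]
  [IsLocalization.AtPrime A (mp (ψ x))] [Algebra A L] [IsScalarTower P2 A L] [Algebra A K]
  [IsScalarTower A L K] [IsScalarTower P2 A K] [CommRing B] [IsDomain B] [Algebra A B]
  [Algebra B K] [IsScalarTower A B K] [IsIntegralClosure B A K]

omit ha h hx hz in
theorem clear {s : K} (hs : IsIntegral A s) :
    ∃ r ∉ mp (ψ x), IsIntegral P2 (algebraMap P2 K r * s) := by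
  obtain ⟨r, hr⟩ := hs.exists_multiple_integral_of_isLocalization (mp (ψ x)).primeCompl
  exact ⟨r, r.2, by rwa [Submonoid.smul_def, Algebra.smul_def] at hr⟩

omit ha h hx hz in
theorem max_eq [IsLocalRing A] : maximalIdeal A =
    Ideal.span {algebraMap P2 A (MvPolynomial.X 0 - MvPolynomial.C (ψ x 0)),
      algebraMap P2 A (MvPolynomial.X 1 - MvPolynomial.C (ψ x 1))} := by
  rw [← IsLocalization.AtPrime.map_eq_maximalIdeal (mp (ψ x)) A, ← Set.image_pair,
    ← Ideal.map_span]
  congr 1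
  refine le_antisymm (fun p hp => ?_) (Ideal.span_le.2 ?_)
  · obtain ⟨a, b, e⟩ := mp_gen hp
    exact Ideal.mem_span_pair.2 ⟨a, b, e.symm⟩
  · rintro _ (rfl | rfl) <;> simp [mem_mp]

include L in
theorem free' [Module.Finite A B] : Module.Free A B := by
  have : IsLocalRing A := IsLocalization.AtPrime.isLocalRing A (mp (ψ x))
  have : IsNoetherianRing A :=
    IsLocalization.isNoetherianRing (mp (ψ x)).primeCompl _ inferInstance
  have hi := inj L ha h hx hz
  have hB := IsIntegralClosure.algebraMap_injective B A K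
  have hI := fun s : B => clear (ψ := ψ) (x := x) A
    (IsIntegralClosure.isIntegral_iff.2 ⟨s, rfl⟩ : IsIntegral A (algebraMap B K s))
  refine Fre.free_two _ _ (max_eq (ψ := ψ) (x := x) A) fun u w e => ?_
  set t₀ : P2 := MvPolynomial.X 0 - MvPolynomial.C (ψ x 0)
  set t₁ : P2 := MvPolynomial.X 1 - MvPolynomial.C (ψ x 1)
  have e' : algebraMap P2 K t₀ * algebraMap B K u + algebraMap P2 K t₁ * algebraMap B K w = 0 := by
    simpa only [Algebra.smul_def, ← IsScalarTower.algebraMap_apply, map_add, map_mul, map_zero]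
      using congrArg (algebraMap B K) e
  have h0 : algebraMap P2 K t₀ ≠ 0 := (map_ne_zero_iff _ hi).2 (prime_sub _).ne_zero
  obtain ⟨r, r1, r2⟩ := hI u
  obtain ⟨r', r1', r2'⟩ := hI w
  have h1 : IsIntegral P2 (algebraMap P2 K (r * r') * (algebraMap B K w / algebraMap P2 K t₀)) := by
    refine Fre.integral_of_two (L := L) (s := t₀) (t := t₁) (prime_sub _) (not_dvd_sub _)
      (Algebra.IsIntegral.isIntegral _) ?_ ?_
    · refine (congrArg (IsIntegral P2) ?_).mp ((isIntegral_algebraMap (x := r)).mul r2')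
      rw [Algebra.smul_def, map_mul]; field_simp
    · refine (congrArg (IsIntegral P2) ?_).mp ((isIntegral_algebraMap (x := r')).mul r2).neg
      rw [Algebra.smul_def, map_mul]; field_simp
      linear_combination -(algebraMap P2 K r * algebraMap P2 K r') * e'
  obtain ⟨c, hc⟩ := (IsLocalization.map_units A
    (⟨r * r', mul_mem r1 r1'⟩ : (mp (ψ x)).primeCompl)).exists_left_inv
  have h2 : IsIntegral A (algebraMap B K w / algebraMap P2 K t₀) := by
    refine (congrArg (IsIntegral A) ?_).mp ((isIntegral_algebraMap (x := c)).mul h1.tower_top)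
    rw [← mul_assoc, IsScalarTower.algebraMap_apply P2 A K (r * r'), ← map_mul, hc, map_one,
      one_mul]
  obtain ⟨y, hy⟩ := (IsIntegralClosure.isIntegral_iff (A := B)).1 h2
  refine ⟨y, hB ?_, hB ?_⟩
  · rw [Algebra.smul_def, map_mul, hy, ← IsScalarTower.algebraMap_apply,
      ← IsScalarTower.algebraMap_apply]
    field_simp
  · rw [Algebra.smul_def, map_neg, map_mul, hy, ← IsScalarTower.algebraMap_apply,
      ← IsScalarTower.algebraMap_apply]
    field_simp
    linear_combination e'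

include A B in
theorem core' : ∃ g : K, Core L ff z (ψ x) x g := by
  classical
  have : IsFractionRing A L := IsFractionRing.isFractionRing_of_isLocalization
    (mp (ψ x)).primeCompl _ _ (Ideal.primeCompl_le_nonZeroDivisors _)
  have : IsLocalRing A := IsLocalization.AtPrime.isLocalRing A (mp (ψ x))
  have : IsNoetherianRing A :=
    IsLocalization.isNoetherianRing (mp (ψ x)).primeCompl _ inferInstance
  have : IsIntegrallyClosed A := isIntegrallyClosed_of_isLocalization A (mp (ψ x)).primeCompl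
    (Ideal.primeCompl_le_nonZeroDivisors _)
  have : CharZero L := charZero_of_injective_algebraMap (IsFractionRing.injective P2 L)
  have : Module.Finite A B := IsIntegralClosure.finite A L K B
  have := free' L ha h hx hz A B
  have hI := fun s : B => clear (ψ := ψ) (x := x) A
    (IsIntegralClosure.isIntegral_iff.2 ⟨s, rfl⟩ : IsIntegral A (algebraMap B K s))
  have hJ : ∀ s : K, IsIntegral P2 s → ∃ t : B, algebraMap B K t = s := fun s hs =>
    (IsIntegralClosure.isIntegral_iff (R := A)).1 hs.tower_top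
  have hO : ∀ s : B, algebraMap B K s ∈ ff.O x := fun s => by
    obtain ⟨r, r1, r2⟩ := hI s
    exact of_mul ha h hx hz r1 (int_mem ha h hx hz r2)
  have := IsIntegralClosure.isLocalization A L K B
  let b := Module.Free.chooseBasis A B
  let c := b.localizationLocalization L (nonZeroDivisors A) K
  let φ : B →+* (ff.O x).toSubring := (algebraMap B K).codRestrict _ hO
  let v : B →+* ℂ := (vh ff x).toRingHom.comp φ
  have hv : ∀ s : B, v s = ff.val (algebraMap B K s) x := fun _ => rfl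
  have hp : ∀ p : P2, v (algebraMap A B (algebraMap P2 A p)) = MvPolynomial.eval (ψ x) p :=
    fun p => by
      rw [hv, ← IsScalarTower.algebraMap_apply, ← IsScalarTower.algebraMap_apply]
      exact (poly_mem ha h hx hz p).2
  have hs : ∀ t : ℂ, ∃ a : A, v (algebraMap A B a) = t := fun t =>
    ⟨_, (hp (MvPolynomial.C t)).trans (MvPolynomial.eval_C t)⟩
  obtain ⟨ε, e1, e2⟩ := idem b c (b.localizationLocalization_apply L _ K) (ff.O x).toSubring
    (vh ff x).toRingHom φ (fun _ => rfl) (fun g hg => dual_mem L ha h hx hz fun s hs => by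
      obtain ⟨t, rfl⟩ := hJ s hs
      obtain ⟨a, e⟩ := hg t
      obtain ⟨⟨p, r⟩, k⟩ := IsLocalization.surj (mp (ψ x)).primeCompl a
      refine ⟨p, r, r.2, ?_⟩
      rw [← e, IsScalarTower.algebraMap_apply P2 A L, IsScalarTower.algebraMap_apply P2 A L p,
        ← map_mul, mul_comm, k]) hs
  obtain ⟨r, r1, r2⟩ := hI ε
  obtain ⟨g, hg'⟩ : ∃ g, g = algebraMap A B (algebraMap P2 A r) * ε := ⟨_, rfl⟩
  have g1 : IsIntegral P2 (algebraMap B K g) := by
    rwa [hg', map_mul, ← IsScalarTower.algebraMap_apply, ← IsScalarTower.algebraMap_apply]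
  have g0 : v g ≠ 0 := by
    rw [hg', map_mul, hp]
    exact mul_ne_zero r1 fun e => one_ne_zero (e1.symm.trans e)
  have hg : ∀ s : B, v s = 0 → ∀ j, v (algebraMap A B (b.repr (s * g) j)) = 0 := fun s k j => by
    rw [hg', ← mul_assoc]
    exact e2 _ (by change v _ = 0; rw [map_mul, k, zero_mul]) j
  have h1 := simple_root b v hs g0 hg
  have h2 : Algebra.leftMulMatrix c (algebraMap B K g) =
      (Algebra.leftMulMatrix b g).map (algebraMap A L) := by
    ext i j
    rw [Matrix.map_apply, Algebra.leftMulMatrix_eq_repr_mul, Algebra.leftMulMatrix_eq_repr_mul,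
      b.localizationLocalization_apply L (nonZeroDivisors A) K, ← b.localizationLocalization_repr_algebraMap L
        (nonZeroDivisors A) K, map_mul (algebraMap B K)]
  have h3 : Polynomial.aeval (algebraMap B K g)
      (Polynomial.derivative (Algebra.leftMulMatrix c (algebraMap B K g)).charpoly) = algebraMap B K
      (Polynomial.aeval g (Polynomial.derivative (Algebra.leftMulMatrix b g).charpoly)) := by
    rw [h2, Matrix.charpoly_map, Polynomial.derivative_map, Polynomial.aeval_map_algebraMap]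
    exact Polynomial.aeval_algebraMap_apply K g _
  have h4 := minpoly_eq c (g := algebraMap B K g) (by
    rw [h3]
    exact fun e => h1 (by rw [hv, e, val_zero]))
  refine ⟨_, g1, g0, fun s s1 s0 => ?_, ?_, ?_⟩
  · obtain ⟨t, rfl⟩ := hJ s s1
    have h5 : t * g ∈ Ideal.map (algebraMap A B) (maximalIdeal A) := by
      rw [← b.sum_repr (_ * g)]
      refine Ideal.sum_mem _ fun j _ => ?_
      rw [Algebra.smul_def]
      refine Ideal.mul_mem_right _ _ (Ideal.mem_map_of_mem _ fun k => ?_)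
      exact (k.map (v.comp (algebraMap A B))).ne_zero (hg _ s0 j)
    rw [max_eq (ψ := ψ) (x := x) A, Ideal.map_span, Set.image_pair] at h5
    obtain ⟨u, w, e⟩ := Ideal.mem_span_pair.1 h5
    obtain ⟨p, p1, p2⟩ := hI u
    obtain ⟨q, q1, q2⟩ := hI w
    refine ⟨p * q, mul_mem (s := (mp (ψ x)).primeCompl) p1 q1, _, _,
      (isIntegral_algebraMap (x := q)).mul p2, (isIntegral_algebraMap (x := p)).mul q2, ?_⟩
    have e' := congrArg (algebraMap B K) e
    simp only [map_add, map_mul, ← IsScalarTower.algebraMap_apply, ha, map_sub,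
      MvPolynomial.aeval_X, MvPolynomial.aeval_C] at e'
    rw [← e', map_mul]
    ring
  · rw [Field.primitive_element_iff_minpoly_natDegree_eq, h4, Matrix.charpoly_natDegree_eq_dim,
      Module.finrank_eq_card_basis c]
  · have h5 := minpoly.isIntegrallyClosed_eq_field_fractions' L g1
    rw [← Polynomial.aeval_map_algebraMap L, ← Polynomial.derivative_map, ← h5, h4, h3]
    exact h1

end

theorem core : ∃ g : K, Core L ff z (ψ x) x g := by
  let A := Localization.subalgebra.ofField L (mp (ψ x)).primeCompl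
    (Ideal.primeCompl_le_nonZeroDivisors _)
  have : IsLocalization.AtPrime A (mp (ψ x)) := Localization.subalgebra.isLocalization_ofField L _ _
  exact core' L ha h hx hz A (integralClosure A K)

omit h hx hz in
theorem mem_Bz' {f : K} : f ∈ Bz z ↔ IsIntegral P2 f := by
  have h1 : ∀ p, algebraMap P2 K p ∈ Algebra.adjoin ℂ (range z) := fun p => by
    rw [ha, Algebra.adjoin_range_eq_range_aeval]
    exact ⟨p, rfl⟩
  let φ := (algebraMap P2 K).codRestrict (Algebra.adjoin ℂ (range z)) h1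
  refine ⟨fun k => ?_, fun k => k.map_of_comp_eq φ (RingHom.id K) rfl⟩
  letI := φ.toAlgebra
  have : IsScalarTower P2 (Algebra.adjoin ℂ (range z)) K := .of_algebraMap_eq fun _ => rfl
  have : Algebra.IsIntegral P2 (Algebra.adjoin ℂ (range z)) :=
    ⟨φ.isIntegral_of_surjective fun ⟨a, k⟩ => by
      rw [Algebra.adjoin_range_eq_range_aeval] at k
      obtain ⟨p, rfl⟩ := k
      exact ⟨p, Subtype.ext (ha p)⟩⟩
  exact isIntegral_trans f (mem_Bz.1 k)

include L in
theorem geo' : Algebra.trdeg ℂ K = 2 ∧ Algebra.FiniteType ℂ (Bz z) ∧ IsFractionRing (Bz z) K ∧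
    (∃ (n : Ideal (Bz z)) (hn : n.IsMaximal), loc (Bz z) n hn.isPrime = ff.O x) ∧
    Par (ff.O x) (z 0 - algebraMap ℂ K (ψ x 0)) (z 1 - algebraMap ℂ K (ψ x 1)) := by
  have : CharZero L := charZero_of_injective_algebraMap (IsFractionRing.injective P2 L)
  have : FaithfulSMul P2 K := (faithfulSMul_iff_algebraMap_injective _ _).2 (inj L ha h hx hz)
  have : Algebra.IsAlgebraic P2 K := ⟨fun g => (IsFractionRing.isAlgebraic_iff P2 L K).2
    (Algebra.IsAlgebraic.isAlgebraic g)⟩
  have htd : Algebra.trdeg ℂ K = 2 := by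
    rw [← trdeg_add_eq ℂ P2 (A := K), trdeg_eq_zero (R := P2) (A := K), add_zero,
      MvPolynomial.trdeg_of_isDomain]
    simp
  obtain ⟨h1, h2⟩ : Algebra.FiniteType ℂ (Bz z) ∧ IsFractionRing (Bz z) K := by
    letI : Algebra P2 (Bz z) := ((algebraMap P2 K).codRestrict (Bz z)
      fun p => (mem_Bz' ha).2 isIntegral_algebraMap).toAlgebra
    have : IsScalarTower P2 (Bz z) K := .of_algebraMap_eq fun _ => rfl
    have : IsScalarTower ℂ P2 (Bz z) := .of_algebraMap_eq fun c =>
      Subtype.ext (IsScalarTower.algebraMap_apply ℂ P2 K c)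
    have : IsIntegralClosure (Bz z) P2 K := ⟨Subtype.val_injective, fun {f} =>
      ⟨fun k => ⟨⟨f, (mem_Bz' ha).2 k⟩, rfl⟩, fun ⟨y, k⟩ => k ▸ (mem_Bz' ha).1 y.2⟩⟩
    have : Module.Finite P2 (Bz z) := IsIntegralClosure.finite P2 L K _
    exact ⟨Algebra.FiniteType.trans (S := P2) inferInstance inferInstance,
      IsIntegralClosure.isFractionRing_of_finite_extension P2 L K _⟩
  have hle : Bz z ≤ ff.O x := fun f k => int_mem ha h hx hz ((mem_Bz' ha).1 k)
  let w : Bz z →ₐ[ℂ] ℂ := (vh ff x).comp (Subalgebra.inclusion hle)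
  let n : Ideal (Bz z) := RingHom.ker w
  have hn : n.IsMaximal :=
    RingHom.ker_isMaximal_of_surjective w fun c => ⟨algebraMap ℂ _ c, w.commutes c⟩
  have hw : ∀ b : Bz z, b ∈ n ↔ ff.val b x = 0 := fun _ => Iff.rfl
  set D := loc (Bz z) n hn.isPrime with hD
  have hDO : D ≤ ff.O x := loc_le _ hle fun b hb => ff.inv x _ (hle b.2) hb
  have hBD : ∀ {f}, IsIntegral P2 f → f ∈ D := fun k => le_loc _ _ _ ((mem_Bz' ha).2 k)
  have hinv : ∀ {f}, IsIntegral P2 f → ff.val f x ≠ 0 → f⁻¹ ∈ D := fun k l =>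
    inv_mem_loc hn.isPrime (b := ⟨_, (mem_Bz' ha).2 k⟩) l
  have hvan : ∀ f ∈ D, ff.val f x = 0 → Van D f := fun f k l => ⟨k, by
    by_contra h3
    push Not at h3
    exact val_ne ff (hDO k) h3.1 (hDO h3.2) l⟩
  have ht : ∀ i, Van D (z i - algebraMap ℂ K (ψ x i)) := fun i => by
    have h3 := poly_mem ha h hx hz (MvPolynomial.X i - MvPolynomial.C (ψ x i))
    have h4 := hBD (isIntegral_algebraMap (x := MvPolynomial.X i - MvPolynomial.C (ψ x i)))
    rw [ha, map_sub, MvPolynomial.aeval_X, MvPolynomial.aeval_C] at h3 h4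
    exact hvan _ h4 (h3.2.trans (by simp))
  obtain ⟨g, g1, g0, g2, -⟩ := core L ha h hx hz
  have hP : Par D (z 0 - algebraMap ℂ K (ψ x 0)) (z 1 - algebraMap ℂ K (ψ x 1)) := by
    refine ⟨ht 0, ht 1, ?_⟩
    rintro f ⟨⟨a, c, hc, e⟩, hf⟩
    have c0 := ne_zero_of_notMem hc
    have a0 : ff.val a x = 0 := by
      by_contra k
      have a1 : (a : K) ≠ 0 := ne_zero_of_notMem (p := n) k
      refine hf.elim (fun l => a1 (by rw [← e, l, zero_mul])) fun l => l ?_
      rw [show f⁻¹ = c * (a : K)⁻¹ by rw [← e, mul_inv, mul_comm, inv_mul_cancel_right₀ c0]]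
      exact mul_mem (le_loc _ _ _ c.2) (inv_mem_loc _ k)
    obtain ⟨r, r1, u, v, u1, v1, e'⟩ := g2 a ((mem_Bz' ha).1 a.2) a0
    have r2 : ff.val (algebraMap P2 K r) x ≠ 0 := (poly_mem ha h hx hz r).2 ▸ r1
    have k := mul_mem (mul_mem (hinv g1 g0) (hinv isIntegral_algebraMap r2)) (inv_mem_loc _ hc)
    refine ⟨_, mul_mem k (hBD u1), _, mul_mem k (hBD v1), ?_⟩
    have g3 : g ≠ 0 := fun l => g0 (l ▸ val_zero ff x)
    have r3 : algebraMap P2 K r ≠ 0 := fun l => r2 (l ▸ val_zero ff x)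
    rw [mul_assoc _ u, mul_assoc _ v, ← mul_add, ← e', ← e]
    field_simp
  have hG : Geo D := ⟨_, h1, h2, n, hn, rfl⟩
  have hR := reg K htd D ⟨_, hP.1.1⟩ ⟨_, hP.2.1.1⟩ hG hP
  have hOD : ff.O x ≤ D := by
    intro f hf
    have := hR.ufd
    have := hG.frac
    obtain ⟨a, b, hab, rfl⟩ := IsFractionRing.exists_reduced_fraction D f
    rw [IsFractionRing.mk'_eq_div] at hf ⊢
    by_cases hb : IsUnit (b : D)
    · rw [div_eq_mul_inv]
      exact mul_mem a.2 ((isUnit_iff_inv _).1 hb).2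
    exfalso
    have b0 : (b : D) ≠ 0 := nonZeroDivisors.ne_zero b.2
    obtain ⟨π, hπ, c, hc⟩ := WfDvdMonoid.exists_irreducible_factor hb b0
    have π0 : (π : K) ≠ 0 := fun l => hπ.ne_zero (Subtype.ext l)
    have hrad : ∀ i, ∃ N : ℕ, (z i - algebraMap ℂ K (ψ x i)) ^ N / π ∈ ff.O x := fun i => by
      have h3 : (⟨_, (ht i).1⟩ : D) ∈ (Ideal.span {π, a}).radical := by
        rw [Ideal.radical_eq_sInf, Ideal.mem_sInf]
        rintro p ⟨p1, p2⟩
        by_cases p3 : p.IsMaximal
        · rw [eq_maximalIdeal p3]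
          exact (van_iff _).2 (ht i)
        obtain ⟨q, rfl⟩ := hR.prin p p2 p3
        have d1 : q ∣ π := Ideal.mem_span_singleton.1 (p1 (Ideal.subset_span (by simp)))
        have d2 : q ∣ a := Ideal.mem_span_singleton.1 (p1 (Ideal.subset_span (by simp)))
        exact absurd (Ideal.span_singleton_eq_top.2 (hab d2 (d1.trans ⟨c, hc⟩))) p2.ne_top
      obtain ⟨N, hN⟩ := h3
      obtain ⟨s, t, e⟩ := Ideal.mem_span_pair.1 hN
      have e' : (s : K) * π + t * a = (z i - algebraMap ℂ K (ψ x i)) ^ N := congrArg Subtype.val e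
      have e'' : ((b : D) : K) = π * c := congrArg Subtype.val hc
      have c0 : (c : K) ≠ 0 := fun l => b0 (Subtype.ext (by rw [e'', l, mul_zero]; rfl))
      refine ⟨N, ?_⟩
      convert add_mem (hDO s.2) (mul_mem (mul_mem (hDO t.2) hf) (hDO c.2)) using 1
      change _ = (s : K) + t * (a / ((b : D) : K)) * c
      rw [← e', e'']
      field_simp
    choose N hN using hrad
    have h3 : (π : K)⁻¹ ∈ ff.O x := by
      refine h.punct hx (eventually_nhdsWithin_iff.2 ?_)
      filter_upwards [ψ.open_source.mem_nhds hx, eventually_all.2 fun i => ff.nhds x _ (hN i)]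
        with y k1 k2 k3
      obtain ⟨i, hi⟩ := Function.ne_iff.1 fun l => k3 (ψ.injOn k1 hx l)
      have k4 := of_mul ha h k1 hz (g := (π : K)⁻¹)
        (p := (MvPolynomial.X i - MvPolynomial.C (ψ x i)) ^ N i) (by simp [mem_mp, sub_eq_zero, hi])
      rw [ha, map_pow, map_sub, MvPolynomial.aeval_X, MvPolynomial.aeval_C] at k4
      exact k4 (div_eq_mul_inv _ (π : K) ▸ k2 i)
    obtain ⟨a', c', hc', e⟩ := π.2
    refine hπ.not_isUnit ((isUnit_iff_inv _).2 ⟨π0, ?_⟩)
    have a0 : a' ∉ n := by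
      rw [hw, ← e, ff.val_mul x _ (hDO π.2) _ (hle c'.2)]
      exact mul_ne_zero (val_ne ff (hDO π.2) π0 h3) hc'
    rw [show (π : K)⁻¹ = c' * (a' : K)⁻¹ by
      rw [← e, mul_inv, mul_comm, inv_mul_cancel_right₀ (ne_zero_of_notMem hc')]]
    exact mul_mem (le_loc _ _ _ c'.2) (inv_mem_loc _ a0)
  exact ⟨htd, h1, h2, ⟨n, hn, le_antisymm hDO hOD⟩, le_antisymm hDO hOD ▸ hP⟩

end

end Vale.Agent.P253Y.T3x
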