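import Vale.Agent.P253Z.T2.Out

/-! The local rings of the field of ratios: analytic properties. -/

set_option linter.all false

open scoped Topology
open Set Metric Filter
open Vale.Agent.P272.K (Cm Chart)
open Vale.Agent.P253Z Vale.Agent.P253Z.T2

noncomputable section

namespace Vale.Agent.P253Y.T3x

variable {n : ℕ} {M : Type} [MetricSpace M] [ChartedSpace (Cm n) M]
  {T : ℕ → Submodule ℂ (M → ℂ)} {K : Type} [Field K] [Algebra ℂ K] (ff : FF n T K)

/-- the value at a point -/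
def vh (x : M) : ff.O x →ₐ[ℂ] ℂ where
  toFun f := ff.val f x
  map_one' := by simpa using ff.val_const x 1
  map_mul' f g := ff.val_mul x f f.2 g g.2
  map_zero' := by simpa using ff.val_const x 0
  map_add' f g := ff.val_add x f f.2 g g.2
  commutes' c := ff.val_const x c

theorem val_one (x : M) : ff.val 1 x = 1 := map_one (vh ff x)

theorem val_zero (x : M) : ff.val 0 x = 0 := map_zero (vh ff x)

theorem val_sub {x : M} {f g : K} (hf : f ∈ ff.O x) (hg : g ∈ ff.O x) :
    ff.val (f - g) x = ff.val f x - ff.val g x := map_sub (vh ff x) ⟨f, hf⟩ ⟨g, hg⟩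

theorem val_pow {x : M} {f : K} (hf : f ∈ ff.O x) (k : ℕ) :
    ff.val (f ^ k) x = ff.val f x ^ k := map_pow (vh ff x) ⟨f, hf⟩ k

theorem val_ne {x : M} {f : K} (hf : f ∈ ff.O x) (h0 : f ≠ 0) (h : f⁻¹ ∈ ff.O x) :
    ff.val f x ≠ 0 := fun e => by
  have := ff.val_mul x f hf _ h
  rw [mul_inv_cancel₀ h0, val_one, e, zero_mul] at this
  exact one_ne_zero this

theorem aeval_mem {σ : Type} {z : σ → K} {x : M} (hz : ∀ i, z i ∈ ff.O x)
    (p : MvPolynomial σ ℂ) : MvPolynomial.aeval z p ∈ ff.O x ∧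
      ff.val (MvPolynomial.aeval z p) x = MvPolynomial.eval (fun i => ff.val (z i) x) p := by
  induction p using MvPolynomial.induction_on with
  | C c => simpa using ff.val_const x c
  | add p q hp hq =>
    rw [map_add, map_add, ff.val_add x _ hp.1 _ hq.1, hp.2, hq.2]
    exact ⟨add_mem hp.1 hq.1, rfl⟩
  | mul_X p i hp =>
    rw [map_mul, map_mul, MvPolynomial.aeval_X, MvPolynomial.eval_X, ff.val_mul x _ hp.1 _ (hz i),
      hp.2]
    exact ⟨mul_mem hp.1 (hz i), rfl⟩

/-- the values are analytic in the coordinates `ψ` -/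
def An (ψ : Chart n M) : Prop :=
  ∀ y ∈ ψ.source, ∀ f ∈ ff.O y, AnalyticAt ℂ (fun w => ff.val f (ψ.symm w)) (ψ y)

theorem an_of {e : Chart n M} (he : Hc e) : An ff e := fun y hy f hf => ff.hol y f hf e he hy

variable {ff} {ψ : Chart n M} {x : M}

theorem eq_near (hx : x ∈ ψ.source) (u : M → ℂ) : u =ᶠ[𝓝 x] fun y => u (ψ.symm (ψ y)) := by
  filter_upwards [ψ.open_source.mem_nhds hx] with y hy using by rw [ψ.left_inv hy]

theorem An.cont (h : An ff ψ) (hx : x ∈ ψ.source) {f : K} (hf : f ∈ ff.O x) :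
    ContinuousAt (ff.val f) x :=
  ((h x hx f hf).continuousAt.comp (ψ.continuousAt hx)).congr (eq_near hx _).symm

theorem An.rechart (h : An ff ψ) (hx : x ∈ ψ.source) {z : Fin n → K} (hz : ∀ i, z i ∈ ff.O x)
    (hd : Function.Bijective (fderiv ℂ (fun w i => ff.val (z i) (ψ.symm w)) (ψ x))) :
    ∃ χ : Chart n M, An ff χ ∧ x ∈ χ.source ∧
      ∀ y ∈ χ.source, (∀ i, z i ∈ ff.O y) ∧ χ y = fun i => ff.val (z i) y := by
  have h0 : AnalyticAt ℂ (fun w i => ff.val (z i) (ψ.symm w)) (ψ x) :=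
    AnalyticAt.pi fun i => h x hx _ (hz i)
  let L : Cm n ≃L[ℂ] Cm n := ContinuousLinearEquiv.ofBijective _
    (LinearMap.ker_eq_bot.2 hd.1) (LinearMap.range_eq_top.2 hd.2)
  have h3 : HasStrictFDerivAt (fun w i => ff.val (z i) (ψ.symm w)) (L : Cm n →L[ℂ] Cm n) (ψ x) :=
    h0.hasStrictFDerivAt
  set φ := h3.toOpenPartialHomeomorph _
  have hφ : ψ x ∈ φ.source := h3.mem_toOpenPartialHomeomorph_source
  have h4 : AnalyticAt ℂ φ.symm (φ (ψ x)) := φ.analyticAt_symm' (i := L) hφ h0 rfl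
  have h5 : ∀ᶠ y in 𝓝 x, (∀ i, z i ∈ ff.O y) ∧ AnalyticAt ℂ φ.symm (φ (ψ y)) :=
    (eventually_all.2 fun i => ff.nhds x _ (hz i)).and
      (((φ.continuousAt hφ).comp (ψ.continuousAt hx)).eventually h4.eventually_analyticAt)
  obtain ⟨U, hU, hU1, hU2⟩ := _root_.eventually_nhds_iff.1 h5
  refine ⟨(ψ.trans φ).restrOpen U hU1, fun y hy f hf => ?_, ⟨⟨hx, hφ⟩, hU2⟩, fun y hy =>
    ⟨(hU y hy.2).1, funext fun i => ?_⟩⟩
  · exact AnalyticAt.comp_of_eq (g := fun w => ff.val f (ψ.symm w)) (h y hy.1.1 f hf)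
      (hU y hy.2).2 (φ.left_inv hy.1.2)
  · change ff.val (z i) (ψ.symm (ψ y)) = _
    rw [ψ.left_inv hy.1.1]

theorem An.div (h : An ff ψ) (hx : x ∈ ψ.source) {a f : K} (ha : a ∈ ff.O x) (hf : f ∈ ff.O x)
    (h0 : f ≠ 0) {C : ℝ} (hb : ∀ᶠ y in 𝓝 x, ‖ff.val a y‖ ≤ C * ‖ff.val f y‖) :
    a / f ∈ ff.O x := by
  refine ff.bdd x _ C ?_
  filter_upwards [hb.eventually_nhds, ψ.open_source.mem_nhds hx, (ff.nhds x a ha).eventually_nhds,
    (ff.nhds x f hf).eventually_nhds] with y h1 h2 h3 h4 h5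
  by_contra h6
  refine h0 (ff.inj y f h4.self_of_nhds ?_)
  filter_upwards [h1, h4, ff.nhds y _ h5,
    continuousAt_const.eventually_lt (h.cont h2 h5).norm (not_le.1 h6)] with w k1 k2 k3 k4
  have k5 := ff.val_mul w _ k3 f k2
  rw [div_mul_cancel₀ _ h0] at k5
  rw [k5, norm_mul] at k1
  by_contra k6
  exact absurd (lt_of_le_of_lt k1 (mul_lt_mul_of_pos_right k4 (norm_pos_iff.2 k6))) (lt_irrefl _)

theorem An.int (h : An ff ψ) (hx : x ∈ ψ.source) {f : K} (hf : IsIntegral (ff.O x) f) :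
    f ∈ ff.O x := by
  obtain ⟨p, hp, e⟩ := hf
  refine ff.bdd x _ (∑ i ∈ Finset.range p.natDegree, (‖ff.val (p.coeff i) x‖ + 1) + 1) ?_
  have h1 : ∀ᶠ y in 𝓝 x, ∀ i ∈ Finset.range p.natDegree, (p.coeff i : K) ∈ ff.O y ∧
      ‖ff.val (p.coeff i) y‖ < ‖ff.val (p.coeff i) x‖ + 1 :=
    (Finset.eventually_all _).2 fun i _ => (ff.nhds x _ (p.coeff i).2).and
      ((h.cont hx (p.coeff i).2).norm.eventually_lt continuousAt_const (lt_add_one _))
  filter_upwards [h1] with y h1 hy
  rw [Polynomial.eval₂_eq_sum_range, Finset.sum_range_succ, hp.coeff_natDegree, map_one,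
    one_mul] at e
  set d := p.natDegree
  set t := ff.val f y
  have h2 : ∑ i ∈ Finset.range d, ff.val (p.coeff i) y * t ^ i + t ^ d = 0 := by
    have k : ∀ s ⊆ Finset.range d, (∑ i ∈ s, (p.coeff i : K) * f ^ i) ∈ ff.O y ∧
        ff.val (∑ i ∈ s, (p.coeff i : K) * f ^ i) y = ∑ i ∈ s, ff.val (p.coeff i) y * t ^ i := by
      intro s
      induction s using Finset.induction_on with
      | empty => exact fun _ => ⟨zero_mem _, val_zero ff y⟩
      | insert i s hi ih =>
        intro hs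
        have k1 := ih ((Finset.subset_insert _ _).trans hs)
        have k2 := (h1 i (hs (Finset.mem_insert_self _ _))).1
        have k3 := mul_mem k2 (pow_mem hy i)
        rw [Finset.sum_insert hi, Finset.sum_insert hi, ff.val_add y _ k3 _ k1.1, k1.2,
          ff.val_mul y _ k2 _ (pow_mem hy i), val_pow ff hy]
        exact ⟨add_mem k3 k1.1, rfl⟩
    rw [← (k _ subset_rfl).2, ← val_pow ff hy, ← ff.val_add y _ (k _ subset_rfl).1 _ (pow_mem hy d)]
    exact (congrArg (ff.val · y) e).trans (val_zero ff y)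
  by_contra h3
  have h4 : 0 ≤ ∑ i ∈ Finset.range d, (‖ff.val (p.coeff i) x‖ + 1) :=
    Finset.sum_nonneg fun i _ => by positivity
  have h5 : 1 ≤ ‖t‖ := by linarith [not_le.1 h3]
  have h6 : ‖t ^ d‖ * ‖t‖ ≤ (∑ i ∈ Finset.range d, (‖ff.val (p.coeff i) x‖ + 1)) * ‖t‖ ^ d := by
    rw [eq_neg_of_add_eq_zero_right h2, norm_neg, Finset.sum_mul]
    refine (mul_le_mul_of_nonneg_right (norm_sum_le _ _) (norm_nonneg _)).trans ?_
    rw [Finset.sum_mul]
    refine Finset.sum_le_sum fun i hi => ?_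
    rw [norm_mul, norm_pow, mul_assoc, ← pow_succ]
    exact mul_le_mul (h1 i hi).2.le (pow_le_pow_right₀ h5 (Finset.mem_range.1 hi)) (by positivity)
      (by positivity)
  rw [norm_pow, mul_comm] at h6
  linarith [le_of_mul_le_mul_right h6 (by positivity), not_le.1 h3]

theorem hartogs {F : Cm 2 → ℂ} {c : Cm 2} (h : ∀ᶠ w in 𝓝[≠] c, AnalyticAt ℂ F w) :
    ∃ C, ∀ᶠ w in 𝓝[≠] c, ‖F w‖ ≤ C := by
  obtain ⟨ρ, hρ, h⟩ := Metric.nhds_basis_closedBall.eventually_iff.1
    (eventually_nhdsWithin_iff.1 h)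
  obtain ⟨C, hC⟩ := (isCompact_sphere c ρ).exists_bound_of_continuousOn (f := F) fun w hw =>
    (h (sphere_subset_closedBall hw) (ne_of_mem_sphere hw hρ.ne')).continuousAt.continuousWithinAt
  refine ⟨C, eventually_nhdsWithin_iff.2 ?_⟩
  filter_upwards [closedBall_mem_nhds c hρ] with w hw h0
  obtain ⟨i, hi⟩ := Function.ne_iff.1 h0
  obtain ⟨j, hj⟩ := exists_ne i
  have h1 : ∀ t ∈ closedBall (c j) ρ, Function.update w j t ∈ closedBall c ρ := fun t ht =>
    (dist_pi_le_iff hρ.le).2 fun k => by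
      rcases eq_or_ne k j with rfl | e
      · rwa [Function.update_self]
      · rw [Function.update_of_ne e]
        exact (dist_le_pi_dist w c k).trans hw
  have h2 : DifferentiableOn ℂ (fun t => F (Function.update w j t)) (closedBall (c j) ρ) :=
    fun t ht => ((h (h1 t ht) fun e => hi (by
      rw [← mem_singleton_iff.1 e, Function.update_of_ne hj.symm])).differentiableAt.comp t
        (hasDerivAt_update w j t).differentiableAt).differentiableWithinAt
  have h3 := Complex.norm_le_of_forall_mem_frontier_norm_le (U := ball (c j) ρ) (C := C)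
    isBounded_ball (DifferentiableOn.diffContOnCl (by rwa [closure_ball _ hρ.ne'])) (z := w j)
    (fun t ht => by
      rw [frontier_ball _ hρ.ne'] at ht
      refine hC _ (le_antisymm (h1 t (sphere_subset_closedBall ht)) ?_)
      have := dist_le_pi_dist (Function.update w j t) c j
      rwa [Function.update_self, mem_sphere.1 ht] at this)
    (by rw [closure_ball _ hρ.ne']; exact (dist_le_pi_dist w c j).trans hw)
  rwa [Function.update_eq_self] at h3

theorem der_eval (p : MvPolynomial (Fin n) ℂ) (η : Cm n) :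
    HasFDerivAt (fun w : Cm n => MvPolynomial.eval w p)
      (∑ k, MvPolynomial.eval η (MvPolynomial.pderiv k p) •
        ContinuousLinearMap.proj (R := ℂ) (φ := fun _ : Fin n => ℂ) k) η := by
  induction p using MvPolynomial.induction_on with
  | C c =>
    simp only [MvPolynomial.eval_C]
    refine (hasFDerivAt_const (𝕜 := ℂ) c η).congr_fderiv ?_
    ext1 v
    simp
  | add p q hp hq =>
    simp only [map_add]
    refine (hp.fun_add hq).congr_fderiv ?_
    ext1 v
    simp [add_mul, Finset.sum_add_distrib]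
  | mul_X p i hp =>
    simp only [map_mul, MvPolynomial.eval_X]
    refine (hp.fun_mul (hasFDerivAt_apply (𝕜 := ℂ) i η)).congr_fderiv ?_
    ext1 v
    simp [MvPolynomial.pderiv_X, Pi.single_apply, add_mul, Finset.sum_add_distrib, Finset.mul_sum,
      mul_assoc, apply_ite (MvPolynomial.eval η)]

end Vale.Agent.P253Y.T3x

namespace Vale.Agent.P253Y.T3x

variable {M : Type} [MetricSpace M] [ChartedSpace (Cm 2) M]
  {T : ℕ → Submodule ℂ (M → ℂ)} {K : Type} [Field K] [Algebra ℂ K] {ff : FF 2 T K}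
  {ψ : Chart 2 M} {x : M}

theorem An.punct (h : An ff ψ) (hx : x ∈ ψ.source) {g : K} (hg : ∀ᶠ y in 𝓝[≠] x, g ∈ ff.O y) :
    g ∈ ff.O x := by
  obtain ⟨C, hC⟩ := hartogs (F := fun w => ff.val g (ψ.symm w)) (c := ψ x) (by
    rw [eventually_nhdsWithin_iff] at hg ⊢
    filter_upwards [(ψ.tendsto_symm hx).eventually hg,
      ψ.open_target.mem_nhds (ψ.map_source hx)] with w h1 h2 h3
    have := h _ (ψ.map_target h2) g (h1 fun e => h3 (by
      rw [← mem_singleton_iff.1 e, ψ.right_inv h2]; rfl))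
    rwa [ψ.right_inv h2] at this)
  refine ff.bdd x g (max C ‖ff.val g x‖) ?_
  filter_upwards [(ψ.continuousAt hx).eventually (eventually_nhdsWithin_iff.1 hC),
    ψ.open_source.mem_nhds hx] with y h1 h2 _
  rcases eq_or_ne y x with rfl | e
  · exact le_max_right _ _
  · have := h1 fun k => e (ψ.injOn h2 hx k)
    rw [ψ.left_inv h2] at this
    exact this.trans (le_max_left _ _)

theorem line_tendsto (c : Cm 2) : Tendsto (Function.update c 1) (𝓝 (c 1)) (𝓝 c) := by
  have h : Continuous fun t : ℂ => Function.update c 1 t := continuous_const.update 1 continuous_id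
  have := h.tendsto (c 1)
  rwa [Function.update_eq_self] at this

section
variable (h : An ff ψ) (hx : x ∈ ψ.source) {f : K}
  (hf : ∀ y ∈ ψ.source, f ∈ ff.O y ∧ ψ y 0 = ff.val f y) (h0 : ff.val f x = 0) (f0 : f ≠ 0)
include h hx hf h0 f0

theorem An.line {a : K} (ha : a / f ∈ ff.O x) :
    ∀ᶠ t in 𝓝 (ψ x 1), ff.val a (ψ.symm (Function.update (ψ x) 1 t)) = 0 := by
  filter_upwards [((ψ.tendsto_symm hx).comp (line_tendsto _)).eventually (ff.nhds x _ ha),
    (line_tendsto _).eventually (ψ.open_target.mem_nhds (ψ.map_source hx))] with t h1 h2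
  have h3 := hf _ (ψ.map_target h2)
  have h4 := ff.val_mul (ψ.symm (Function.update (ψ x) 1 t)) _ h1 f h3.1
  rw [div_mul_cancel₀ _ f0, ← h3.2, ψ.right_inv h2, Function.update_of_ne (by decide),
    (hf x hx).2, h0, mul_zero] at h4
  exact h4

theorem An.of_line {a : K} (ha : a ∈ ff.O x)
    (hl : ∀ᶠ t in 𝓝 (ψ x 1), ff.val a (ψ.symm (Function.update (ψ x) 1 t)) = 0) :
    a / f ∈ ff.O x := by
  obtain ⟨C, U, hU, hC⟩ := ((h x hx a ha).contDiffAt (n := 1)).exists_lipschitzOnWith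
  refine h.div hx ha (hf x hx).1 f0 (C := C) ?_
  have h1 : Tendsto (fun y => ψ y 1) (𝓝 x) (𝓝 (ψ x 1)) :=
    ((continuous_apply 1).continuousAt.comp (ψ.continuousAt hx))
  filter_upwards [h1.eventually hl, ((line_tendsto _).comp h1).eventually hU,
    (ψ.continuousAt hx).eventually hU, ψ.open_source.mem_nhds hx] with y k1 k2 k3 k4
  have k5 := hC.dist_le_mul _ k3 _ k2
  simp only [Function.comp, k1, ψ.left_inv k4, dist_zero_right] at k5
  refine k5.trans (mul_le_mul_of_nonneg_left ((dist_pi_le_iff (norm_nonneg _)).2 fun k => ?_)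
    C.2)
  fin_cases k
  · simp [(hf x hx).2, h0, (hf y k4).2]
  · simp

theorem An.prime {a b : K} (ha : a ∈ ff.O x) (hb : b ∈ ff.O x) (hab : a * b / f ∈ ff.O x) :
    a / f ∈ ff.O x ∨ b / f ∈ ff.O x := by
  have k : ∀ {a}, a ∈ ff.O x → AnalyticAt ℂ
      (fun t => ff.val a (ψ.symm (Function.update (ψ x) 1 t))) (ψ x 1) := fun {a} ha =>
    AnalyticAt.comp_of_eq (g := fun w => ff.val a (ψ.symm w)) (h x hx a ha)
      (AnalyticAt.pi fun k => by
        fin_cases k
        · exact analyticAt_const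
        · exact analyticAt_id) (Function.update_eq_self _ _)
  rcases (k ha).eventually_eq_zero_or_eventually_ne_zero with h1 | h1
  · exact Or.inl (h.of_line hx hf h0 f0 ha h1)
  rcases (k hb).eventually_eq_zero_or_eventually_ne_zero with h2 | h2
  · exact Or.inr (h.of_line hx hf h0 f0 hb h2)
  have h3 := ((ψ.tendsto_symm hx).comp (line_tendsto _)).eventually
    ((ff.nhds x _ ha).and (ff.nhds x _ hb))
  obtain ⟨t, k1, k2, k3, k4⟩ := (h1.and (h2.and
    (((h.line hx hf h0 f0 hab).and h3).filter_mono nhdsWithin_le_nhds))).exists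
  exact absurd ((ff.val_mul _ _ k4.1 _ k4.2).symm.trans k3) (mul_ne_zero k1 k2)

theorem An.not_dvd {g : K} (hg : ∀ y ∈ ψ.source, g ∈ ff.O y ∧ ψ y 1 = ff.val g y) (c : ℂ) :
    (g - algebraMap ℂ K c) / f ∉ ff.O x := fun e => by
  have h1 : ∀ᶠ t in 𝓝 (ψ x 1), t = c := by
    filter_upwards [h.line hx hf h0 f0 e,
      (line_tendsto _).eventually (ψ.open_target.mem_nhds (ψ.map_source hx))] with t h1 h2
    have h3 := hg _ (ψ.map_target h2)
    rwa [val_sub ff h3.1 (Subalgebra.algebraMap_mem _ c), ff.val_const, ← h3.2, ψ.right_inv h2,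
      Function.update_self, sub_eq_zero] at h1
  obtain ⟨t, k1, k2⟩ := ((h1.filter_mono nhdsWithin_le_nhds).and
    (self_mem_nhdsWithin (s := {ψ x 1}ᶜ))).exists
  exact k2 (k1.trans h1.self_of_nhds.symm)

end

/-- a polynomial in the coordinates with nonzero differential is a coordinate -/
theorem An.poly (h : An ff ψ) (hx : x ∈ ψ.source) {z : Fin 2 → K}
    (hz : ∀ y ∈ ψ.source, (∀ i, z i ∈ ff.O y) ∧ ψ y = fun i => ff.val (z i) y)
    {p : MvPolynomial (Fin 2) ℂ} {i : Fin 2}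
    (hp : MvPolynomial.eval (ψ x) (MvPolynomial.pderiv i p) ≠ 0) :
    ∃ (j : Fin 2) (χ : Chart 2 M), An ff χ ∧ x ∈ χ.source ∧
      (∀ y ∈ χ.source, MvPolynomial.aeval z p ∈ ff.O y ∧
        χ y 0 = ff.val (MvPolynomial.aeval z p) y) ∧
      ∀ y ∈ χ.source, z j ∈ ff.O y ∧ χ y 1 = ff.val (z j) y := by
  obtain ⟨j, hj⟩ := exists_ne i
  have h1 : (fun w k => ff.val (![MvPolynomial.aeval z p, z j] k) (ψ.symm w)) =ᶠ[𝓝 (ψ x)]
      fun w => ![MvPolynomial.eval w p, w j] := by
    filter_upwards [ψ.open_target.mem_nhds (ψ.map_source hx)] with w hw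
    have h2 := hz _ (ψ.map_target hw)
    rw [ψ.right_inv hw] at h2
    funext k
    fin_cases k
    · exact (aeval_mem ff h2.1 p).2.trans (by rw [← h2.2]; rfl)
    · exact (congrFun h2.2 j).symm
  have h2 : HasFDerivAt (fun w : Cm 2 => ![MvPolynomial.eval w p, w j])
      (ContinuousLinearMap.pi ![∑ k, MvPolynomial.eval (ψ x) (MvPolynomial.pderiv k p) •
        ContinuousLinearMap.proj (R := ℂ) (φ := fun _ : Fin 2 => ℂ) k,
        ContinuousLinearMap.proj (R := ℂ) (φ := fun _ : Fin 2 => ℂ) j]) (ψ x) :=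
    hasFDerivAt_pi.2 fun k => by
      fin_cases k
      · exact der_eval p _
      · exact hasFDerivAt_apply j _
  obtain ⟨χ, k1, k2, k3⟩ := h.rechart hx (z := ![MvPolynomial.aeval z p, z j])
    (Fin.forall_fin_two.2 ⟨(aeval_mem ff (hz x hx).1 p).1, (hz x hx).1 j⟩) (by
      rw [h1.fderiv_eq, h2.fderiv]
      refine (LinearMap.injective_iff_surjective (f := ContinuousLinearMap.toLinearMap _)).1
        |> fun k => (fun h => ⟨h, k h⟩) ((injective_iff_map_eq_zero _).2 fun v hv => ?_)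
      have e0 := congrFun hv 0
      have e1 : v j = 0 := congrFun hv 1
      fin_cases i <;> fin_cases j <;> simp_all [funext_iff])
  exact ⟨j, χ, k1, k2, fun y hy => ⟨(k3 y hy).1 0, congrFun (k3 y hy).2 0⟩,
    fun y hy => ⟨(k3 y hy).1 1, congrFun (k3 y hy).2 1⟩⟩

end Vale.Agent.P253Y.T3x
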