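import Vale.Agent.P253Y.T3x.Geox
import Vale.Agent.P253Z.T2.Alg

/-! The local rings of the field of ratios: the statements without auxiliary instances. -/

set_option linter.all false

open scoped Topology
open Set Metric Filter IsLocalRing Polynomial
open Vale.Agent.P272.K (Cm Chart)
open Vale.Agent.P253Z Vale.Agent.P253Z.T2 Vale.Agent.P297Z.Sf Vale.Agent.P253Y.Res
open Vale.Agent.P253Z.VS (ev)

noncomputable section

namespace Vale.Agent.P253Y.T3x

/-- the properties of an integral primitive element -/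
theorem prim_facts {A L K : Type} [CommRing A] [IsDomain A] [IsIntegrallyClosed A] [Field L]
    [Algebra A L] [IsFractionRing A L] [Field K] [Algebra L K] [Algebra A K] [IsScalarTower A L K]
    [FiniteDimensional L K] [Algebra.IsSeparable L K] {g : K} (hi : IsIntegral A g)
    (ht : IntermediateField.adjoin L {g} = ⊤) :
    (∀ R : A[X], R ≠ 0 → R.natDegree < (minpoly A g).natDegree →
      ∃ (U V : A[X]) (N : A), N ≠ 0 ∧ U * minpoly A g + V * R = C N) ∧
    (∀ f : K, ∃ d : A, d ≠ 0 ∧ ∃ R : A[X], algebraMap A K d * f = aeval g R) ∧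
    ∀ b, IsIntegral A b → ∃ R : A[X], aeval g (derivative (minpoly A g)) * b = aeval g R := by
  have hinj : Function.Injective (algebraMap A L) := IsFractionRing.injective A L
  have hm := minpoly.isIntegrallyClosed_eq_field_fractions' L hi
  have ht' : Algebra.adjoin L {g} = ⊤ := by
    rw [← IntermediateField.adjoin_simple_toSubalgebra_of_isAlgebraic
      (Algebra.IsAlgebraic.isAlgebraic g), ht, IntermediateField.top_toSubalgebra]
  have clear : ∀ p : L[X], ∃ d : A, d ≠ 0 ∧ ∃ Q : A[X],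
      Q.map (algebraMap A L) = C (algebraMap A L d) * p := by
    intro p
    obtain ⟨b, hb, hp⟩ := IsLocalization.integerNormalization_spec (nonZeroDivisors A) p
    refine ⟨b, nonZeroDivisors.ne_zero hb, _, hp.trans ?_⟩
    rw [← IsScalarTower.algebraMap_smul L b p, smul_eq_C_mul]
  refine ⟨fun R r1 r2 => ?_, fun f => ?_, fun b hb => ?_⟩
  · have h1 : R.map (algebraMap A L) ≠ 0 := (Polynomial.map_ne_zero_iff hinj).2 r1
    have h2 : ¬ minpoly L g ∣ R.map (algebraMap A L) := fun h3 => by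
      have h4 := natDegree_le_of_dvd h3 h1
      rw [hm, natDegree_map_eq_of_injective hinj, natDegree_map_eq_of_injective hinj] at h4
      omega
    obtain ⟨u, v, huv⟩ := (minpoly.irreducible hi.tower_top).coprime_iff_not_dvd.2 h2
    obtain ⟨d, d0, U, hU⟩ := clear u
    obtain ⟨d', d0', V, hV⟩ := clear v
    refine ⟨C d' * U, C d * V, d * d', mul_ne_zero d0 d0', map_injective _ hinj ?_⟩
    simp only [Polynomial.map_add, Polynomial.map_mul, map_C, map_mul, hU, hV, ← hm]
    linear_combination (C (algebraMap A L d) * C (algebraMap A L d')) * huv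
  · have h1 : f ∈ Algebra.adjoin L {g} := ht' ▸ trivial
    rw [Algebra.adjoin_singleton_eq_range_aeval] at h1
    obtain ⟨p, rfl⟩ := h1
    obtain ⟨d, d0, Q, hQ⟩ := clear p
    refine ⟨d, d0, Q, ?_⟩
    rw [← aeval_map_algebraMap L, hQ, map_mul, aeval_C, ← IsScalarTower.algebraMap_apply]
    rfl
  · have h1 := traceForm_dualSubmodule_adjoin A L ht' hi
    have h2 : b ∈ (Algebra.traceForm L K).dualSubmodule
        (Subalgebra.toSubmodule (Algebra.adjoin A {g})) := fun y hy => by
      have h3 : IsIntegral A (b * y) :=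
        hb.mul (IsIntegral.of_mem_of_fg _ hi.fg_adjoin_singleton y hy)
      exact Submodule.mem_one.2
        (IsIntegrallyClosed.isIntegral_iff.1 (Algebra.isIntegral_trace (L := L) h3))
    rw [h1] at h2
    obtain ⟨y, hy, rfl⟩ := h2
    have h0 : aeval g (derivative (minpoly L g)) ≠ 0 :=
      (Algebra.IsSeparable.isSeparable L g).aeval_derivative_ne_zero (minpoly.aeval L g)
    rw [SetLike.mem_coe, Subalgebra.mem_toSubmodule, Algebra.adjoin_singleton_eq_range_aeval] at hy
    obtain ⟨R, rfl⟩ := hy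
    refine ⟨R, ?_⟩
    rw [← aeval_map_algebraMap L, ← derivative_map, ← hm]
    exact mul_inv_cancel_left₀ h0 _

variable {M : Type} [MetricSpace M] [ChartedSpace (Cm 2) M]
  {T : ℕ → Submodule ℂ (M → ℂ)} {K : Type} [Field K] [Algebra ℂ K] {ff : FF 2 T K}
  {ψ : Chart 2 M} {x : M} {z : Fin 2 → K}

theorem aeval_inj (hx : x ∈ ψ.source)
    (hz : ∀ y ∈ ψ.source, (∀ i, z i ∈ ff.O y) ∧ ψ y = fun i => ff.val (z i) y) :
    Function.Injective (MvPolynomial.aeval z : P2 →ₐ[ℂ] K) := by
  refine (injective_iff_map_eq_zero _).2 fun p hp => MvPolynomial.funext fun w => ?_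
  have h7 : AnalyticOnNhd ℂ (fun z : Cm 2 => MvPolynomial.eval z p) univ :=
    AnalyticOnNhd.eval_mvPolynomial p
  have h8 := h7.eqOn_zero_of_preconnected_of_eventuallyEq_zero isPreconnected_univ
    (mem_univ (ψ x)) (by
      filter_upwards [ψ.open_target.mem_nhds (ψ.map_source hx)] with w hw
      have h1 := hz _ (ψ.map_target hw)
      have h2 := (aeval_mem ff h1.1 p).2
      rw [hp, val_zero, ← h1.2, ψ.right_inv hw] at h2
      exact h2.symm)
  simpa using h8 (mem_univ w)

/-- **GEOX** and **GSEL** -/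
theorem geox' (ff : FF 2 T K) (z : Fin 2 → K) (x : M) (hz : ∀ i, z i ∈ ff.O x) (e : Chart 2 M)
    (he : Hc e) (hx : x ∈ e.source)
    (hd : Function.Bijective (fderiv ℂ (fun w i => ff.val (z i) (e.symm w)) (e x)))
    (hfin : FiniteDimensional (IntermediateField.adjoin ℂ (range z)) K) :
    (Algebra.trdeg ℂ K = 2 ∧ Algebra.FiniteType ℂ (Bz z) ∧ IsFractionRing (Bz z) K ∧
      (∃ (n : Ideal (Bz z)) (hn : n.IsMaximal), loc (Bz z) n hn.isPrime = ff.O x) ∧
      Par (ff.O x) (z 0 - algebraMap ℂ K (ff.val (z 0) x))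
        (z 1 - algebraMap ℂ K (ff.val (z 1) x))) ∧
    ∃ (g : K) (P : P2[X]), g ∈ Bz z ∧ P.Monic ∧ Irr P ∧
      P.eval₂ (MvPolynomial.aeval z : P2 →ₐ[ℂ] K).toRingHom g = 0 ∧
      (∀ f : K, ∃ d : P2, d ≠ 0 ∧ ∃ R : P2[X], MvPolynomial.aeval z d * f =
        R.eval₂ (MvPolynomial.aeval z : P2 →ₐ[ℂ] K).toRingHom g) ∧
      (∀ b ∈ Bz z, ∃ R : P2[X],
        P.derivative.eval₂ (MvPolynomial.aeval z : P2 →ₐ[ℂ] K).toRingHom g * b =
          R.eval₂ (MvPolynomial.aeval z : P2 →ₐ[ℂ] K).toRingHom g) ∧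
      ev P.derivative (fun i => ff.val (z i) x) (ff.val g x) ≠ 0 := by
  obtain ⟨ψ, h, hψ, hz'⟩ := (an_of ff he).rechart hx hz hd
  have hi := aeval_inj hψ hz'
  let L := IntermediateField.adjoin ℂ (range z)
  letI : Algebra P2 K := (MvPolynomial.aeval z : P2 →ₐ[ℂ] K).toRingHom.toAlgebra
  have ha : ∀ p, algebraMap P2 K p = MvPolynomial.aeval z p := fun _ => rfl
  have : IsScalarTower ℂ P2 K :=
    .of_algebraMap_eq fun c => ((MvPolynomial.aeval z : P2 →ₐ[ℂ] K).commutes c).symm
  letI : Algebra P2 L := ((algebraMap P2 K).codRestrict L fun p =>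
    (IntermediateField.mem_adjoin_range_iff ℂ z _).2 ⟨p, 1, by simp [ha]⟩).toAlgebra
  have : IsScalarTower P2 L K := .of_algebraMap_eq fun _ => rfl
  have : FaithfulSMul P2 L := (faithfulSMul_iff_algebraMap_injective _ _).2 fun a b k =>
    hi (congrArg Subtype.val k)
  have : IsFractionRing P2 L := .of_field _ _ fun ⟨f, hf⟩ => by
    obtain ⟨r, s, rfl⟩ := (IntermediateField.mem_adjoin_range_iff ℂ z _).1 hf
    exact ⟨r, s, rfl⟩
  have : CharZero L := charZero_of_injective_algebraMap (IsFractionRing.injective P2 L)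
  have h0 := geo' L ha h hψ hz'
  rw [(hz' x hψ).2] at h0
  refine ⟨h0, ?_⟩
  obtain ⟨g, g1, -, -, g2, g3⟩ := core L ha h hψ hz'
  obtain ⟨k1, k2, k3⟩ := prim_facts g1 g2
  refine ⟨g, minpoly P2 g, (mem_Bz' ha).2 g1, minpoly.monic g1, k1, minpoly.aeval P2 g, k2,
    fun b hb => k3 b ((mem_Bz' ha).1 hb), fun k => g3 ?_⟩
  let φ : P2 →+* ff.O x := (algebraMap P2 K).codRestrict _ fun p => (poly_mem ha h hψ hz' p).1
  have h1 : (vh ff x).toRingHom.comp φ = MvPolynomial.eval fun i => ff.val (z i) x :=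
    RingHom.ext fun p => (aeval_mem ff hz p).2
  have h2 := hom_eval₂ (derivative (minpoly P2 g)) φ (vh ff x).toRingHom
    ⟨g, int_mem ha h hψ hz' g1⟩
  have h3 := hom_eval₂ (derivative (minpoly P2 g)) φ (ff.O x).val.toRingHom
    ⟨g, int_mem ha h hψ hz' g1⟩
  rw [h1] at h2
  exact (congrArg (ff.val · x) h3).symm.trans (h2.trans ((eval₂_eq_eval_map _).trans k))

end Vale.Agent.P253Y.T3x
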